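import Vale.Agent.P141.H874.LightI
import Vale.Agent.P141.H45.PhiMid
import Vale.Agent.P141.PL.H588.Gram
import Vale.Agent.P141.PL.H804.Glue
import Vale.Agent.P141.H633.DLine

/-!
# The light pair: the saturated slot and the one node inequality

`QP s c k a n m = s² phi (s⁻² CP c k a n m)`; `qs` : its energy; `DB` : block diagonal matrices.
`node_le` : the step of the trace of the product of the light slot and of the saturated slot.
-/

set_option linter.unusedSectionVars false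

namespace Vale.Agent.P141.H874

open scoped Kronecker
open Finset Matrix Vale.Agent.P141.PL Vale.Agent.P141.PL.H103 Vale.Agent.P141.H103
open Vale.Agent.P075 (Ix val res phi ld GX delt hdiff bd rad)
open Vale.Agent.P141.PL.H588 (hd)
open Vale.Agent.P141.H999 (Sq fm hs fInc light_cs light_l2 light_defect)

noncomputable section

/-! ### Change of the index set -/

section sub

variable {m n : Type*} [Fintype m] [DecidableEq m] [Fintype n] [DecidableEq n]

theorem sub_one (e : m ≃ n) (X : Matrix n n ℝ) : 1 + X.submatrix e e = (1 + X).submatrix e e := by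
  rw [← submatrix_one_equiv e]
  rfl

theorem res_sub (e : m ≃ n) (X : Matrix n n ℝ) :
    res (X.submatrix e e) = (res X).submatrix e e := by
  rw [res, res, sub_one, inv_submatrix_equiv]

theorem phi_sub (e : m ≃ n) (X : Matrix n n ℝ) :
    phi (X.submatrix e e) = (phi X).submatrix e e := by
  rw [phi, phi, res_sub, ← submatrix_one_equiv e]
  rfl

theorem trace_sub' (e : m ≃ n) (X : Matrix n n ℝ) : (X.submatrix e e).trace = X.trace := by
  simp only [trace, Matrix.diag, submatrix_apply]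
  exact Equiv.sum_comp e fun i => X i i

theorem GX_sub (e : m ≃ n) (X : Matrix n n ℝ) : GX (X.submatrix e e) = GX X := by
  rw [GX, GX, ld, ld, trace_sub', sub_one, det_submatrix_equiv_self]

theorem mul_sub' (e : m ≃ n) (X Y : Matrix n n ℝ) :
    X.submatrix e e * Y.submatrix e e = (X * Y).submatrix e e :=
  submatrix_mul_equiv X Y e e e

end sub

/-! ### One node, abstract -/

section abs

variable {m : Type*} [Fintype m] [DecidableEq m]

theorem trace_bd_mul (P : Matrix (m ⊕ m) (m ⊕ m) ℝ) (A D : Matrix m m ℝ) :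
    (P * bd A D).trace = (P.toBlocks₁₁ * A).trace + (P.toBlocks₂₂ * D).trace := by
  conv_lhs => rw [← fromBlocks_toBlocks P]
  rw [bd, fromBlocks_multiply, trace, Fintype.sum_sum_type]
  simp [trace]

/-- the middle step -/
theorem mid_abs {P X : Matrix (m ⊕ m) (m ⊕ m) ℝ} {P₀ P₁ X₀ X₁ : Matrix m m ℝ} {K : ℝ}
    (hP : P.PosSemidef) (hK : (K • (1 : Matrix (m ⊕ m) (m ⊕ m) ℝ) - P).PosSemidef) (hK0 : 0 ≤ K)
    (e₀ : P.toBlocks₁₁ = (1 / 2 : ℝ) • P₀) (e₁ : P.toBlocks₂₂ = (1 / 2 : ℝ) • P₁)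
    (hX : X.PosSemidef) (h₀ : X₀.PosSemidef) (h₁ : X₁.PosSemidef)
    (hs : X + rad m * X * rad m = bd X₀ X₁) :
    (P * phi X).trace + (1 / 2) * (P * (rad m * phi X * rad m)).trace
      ≤ (1 / 2) * ((P₀ * phi X₀).trace + (P₁ * phi X₁).trace)
        + K * (phi X * (rad m * phi X * rad m)).trace := by
  have h := H45.mid_partner hP hK hK0 hX (P075.rad_symm (m := m)) (P075.rad_sq (m := m))
  rw [hs, P075.phi_bd h₀ h₁, trace_bd_mul, e₀, e₁, Matrix.smul_mul, Matrix.smul_mul, trace_smul,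
    trace_smul, smul_eq_mul, smul_eq_mul] at h
  linarith

/-- the gap is paid by the energy -/
theorem gap_abs {X : Matrix (m ⊕ m) (m ⊕ m) ℝ} {X₀ X₁ : Matrix m m ℝ} (hX : X.PosSemidef)
    (h₀ : X₀.PosSemidef) (h₁ : X₁.PosSemidef) (hs : X + rad m * X * rad m = bd X₀ X₁) :
    (phi X * (rad m * phi X * rad m)).trace ≤ GX X₀ + GX X₁ - 2 * GX X := by
  have h := P075.R.GX_col hX h₀ h₁ hs
  linarith

variable {n : Type*} [Fintype n] [DecidableEq n]

/-- the outer step -/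
theorem out_abs {A X₀ X₁ : Matrix n n ℝ} {K : ℝ} (hA : (K • (1 : Matrix n n ℝ) - A).PosSemidef)
    (h₀ : X₀.PosSemidef) (h₁ : X₁.PosSemidef) :
    (A * phi ((1 / 2 : ℝ) • (X₀ + X₁))).trace
      ≤ (A * ((1 / 2 : ℝ) • (phi X₀ + phi X₁))).trace + K * (delt X₀ X₁).trace := by
  have e : phi ((1 / 2 : ℝ) • (X₀ + X₁)) = (1 / 2 : ℝ) • (phi X₀ + phi X₁) + delt X₀ X₁ := by
    rw [delt]; abel
  have h := P075.trace_mul_le_left (P075.delt_psd h₀ h₁) hA
  rw [smul_mul_assoc, Matrix.one_mul, trace_smul, smul_eq_mul] at h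
  rw [e, Matrix.mul_add, trace_add]
  linarith

theorem delt_le {X₀ X₁ : Matrix n n ℝ} (h₀ : X₀.PosSemidef) (h₁ : X₁.PosSemidef) :
    (delt X₀ X₁).trace ≤ GX X₀ + GX X₁ - 2 * GX ((1 / 2 : ℝ) • (X₀ + X₁)) := by
  have h := P075.R.GX_row h₀ h₁
  linarith

theorem phi_le {X : Matrix n n ℝ} (hX : X.PosSemidef) : (X - phi X).PosSemidef := by
  have e : X - phi X = X * res X * X := by
    have h1 := P075.mul_res hX
    have h2 := P075.res_mul hX
    rw [h1, Matrix.sub_mul, Matrix.one_mul, h2, phi]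
  rw [e]
  exact P075.psd_conj_symm (P075.res_psd hX) (P075.psd_isSymm hX)

end abs

variable {κ : Type*} [Fintype κ] [DecidableEq κ]

/-! ### Block diagonal matrices -/

/-- the block diagonal matrix of `M x` -/
def DB (k : ℕ) (m : ℤ) (M : ℤ → Matrix κ κ ℝ) : Matrix (Ix k × κ) (Ix k × κ) ℝ := fun p q =>
  if p.1 = q.1 then M (2 ^ k * m + val k p.1) p.2 q.2 else 0

/-- the blocks of a matrix -/
def bk {k : ℕ} (Q : Matrix (Ix k × κ) (Ix k × κ) ℝ) (i j : Ix k) : Matrix κ κ ℝ := fun a b =>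
  Q (i, a) (j, b)

theorem bk_tr {k : ℕ} {Q : Matrix (Ix k × κ) (Ix k × κ) ℝ} (h : Qᵀ = Q) (i j : Ix k) :
    (bk Q i j)ᵀ = bk Q j i := by
  ext a b
  exact congrFun (congrFun h (j, a)) (i, b)

theorem trace_mul_bk {k : ℕ} (P Q : Matrix (Ix k × κ) (Ix k × κ) ℝ) :
    (P * Q).trace = ∑ i, ∑ j, (bk P i j * bk Q j i).trace := by
  simp only [Matrix.trace, Matrix.diag, Matrix.mul_apply, Fintype.sum_prod_type, bk]
  refine Finset.sum_congr rfl fun i _ => ?_
  rw [Finset.sum_comm]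

theorem bk_DB (k : ℕ) (m : ℤ) (M : ℤ → Matrix κ κ ℝ) (i j : Ix k) :
    bk (DB k m M) i j = if i = j then M (2 ^ k * m + val k i) else 0 := by
  ext a b
  unfold bk DB
  split_ifs <;> rfl

theorem bk_mul {k : ℕ} (P Q : Matrix (Ix k × κ) (Ix k × κ) ℝ) (i j : Ix k) :
    bk (P * Q) i j = ∑ r, bk P i r * bk Q r j := by
  ext a b
  simp only [bk, Matrix.mul_apply, Fintype.sum_prod_type, Matrix.sum_apply]

theorem bk_BM (k : ℕ) (m : ℤ) (F : ℤ → ℤ → Matrix κ κ ℝ) (i j : Ix k) :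
    bk (BM k m F) i j = ((2 : ℝ) ^ k)⁻¹ • F (2 ^ k * m + val k i) (2 ^ k * m + val k j) := by
  ext a b
  rfl

theorem bk_ext {k : ℕ} {P Q : Matrix (Ix k × κ) (Ix k × κ) ℝ} (h : ∀ i j, bk P i j = bk Q i j) :
    P = Q := by
  ext ⟨i, a⟩ ⟨j, b⟩
  exact congrFun (congrFun (h i j) a) b

theorem DB_conj (k : ℕ) (m : ℤ) (M : ℤ → Matrix κ κ ℝ) (F : ℤ → ℤ → Matrix κ κ ℝ) :
    DB k m M * BM k m F * DB k m M = BM k m fun x x' => M x * F x x' * M x' := by
  refine bk_ext fun i j => ?_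
  rw [bk_mul]
  simp only [bk_mul, bk_DB, bk_BM]
  simp only [ite_mul, zero_mul, mul_ite, mul_zero, Finset.sum_ite_eq, Finset.sum_ite_eq',
    Finset.mem_univ, if_true]
  rw [Matrix.mul_smul, Matrix.smul_mul]

theorem DB_tr {k : ℕ} {m : ℤ} {M : ℤ → Matrix κ κ ℝ} (h : ∀ x, (M x)ᵀ = M x) :
    (DB k m M)ᵀ = DB k m M := by
  ext ⟨i, a⟩ ⟨j, b⟩
  simp only [transpose_apply, DB]
  by_cases hij : i = j
  · subst hij
    rw [if_pos rfl, if_pos rfl]
    exact congrFun (congrFun (h _) a) b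
  · rw [if_neg hij, if_neg (Ne.symm hij)]

theorem DB_psd {k : ℕ} {m : ℤ} {M : ℤ → Matrix κ κ ℝ} (h : ∀ x, (M x).PosSemidef) :
    (DB k m M).PosSemidef := by
  refine .of_dotProduct_mulVec_nonneg ?_ fun w => ?_
  · rw [IsHermitian, conjTranspose_eq_transpose_of_trivial]
    exact DB_tr fun x => P075.psd_isSymm (h x)
  · rw [star_trivial]
    have e : w ⬝ᵥ (DB k m M *ᵥ w)
        = ∑ i, (fun a => w (i, a)) ⬝ᵥ (M (2 ^ k * m + val k i) *ᵥ fun a => w (i, a)) := by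
      simp only [dotProduct, mulVec, Fintype.sum_prod_type, DB]
      refine Finset.sum_congr rfl fun i _ => Finset.sum_congr rfl fun a _ => ?_
      congr 1
      rw [Finset.sum_eq_single i]
      · simp
      · intro j _ hj
        refine Finset.sum_eq_zero fun b _ => ?_
        rw [if_neg (Ne.symm hj), zero_mul]
      · simp
    rw [e]
    refine Finset.sum_nonneg fun i _ => ?_
    have := (h (2 ^ k * m + val k i)).dotProduct_mulVec_nonneg fun a => w (i, a)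
    rwa [star_trivial] at this

/-- `tr (Q M Q)` by blocks -/
theorem trace_QMQ {k : ℕ} (m : ℤ) {Q : Matrix (Ix k × κ) (Ix k × κ) ℝ} (hQ : Qᵀ = Q)
    (M : ℤ → Matrix κ κ ℝ) :
    (Q * DB k m M * Q).trace
      = ∑ i, ∑ j, ((bk Q i j)ᵀ * (M (2 ^ k * m + val k i) * bk Q i j)).trace := by
  rw [Matrix.mul_assoc, trace_mul_bk, Finset.sum_comm]
  refine Finset.sum_congr rfl fun i _ => Finset.sum_congr rfl fun j _ => ?_
  rw [bk_mul, bk_tr hQ]
  simp only [bk_DB, ite_mul, zero_mul, Finset.sum_ite_eq, Finset.mem_univ, if_true]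

/-! ### The split of the hub -/

/-- the two halves of the hub -/
def eS (k : ℕ) (κ : Type*) : (Ix k × κ) ⊕ (Ix k × κ) ≃ Ix (k + 1) × κ :=
  (Equiv.sumProdDistrib (Ix k) (Ix k) κ).symm

/-- the signs -/
def sk (k : ℕ) (κ : Type*) [DecidableEq κ] : Matrix (Ix k × κ) (Ix k × κ) ℝ :=
  hd k ⊗ₖ (1 : Matrix κ κ ℝ)

theorem sk_tr (k : ℕ) : (sk k κ)ᵀ = sk k κ := by
  rw [sk, ← kroneckerMap_transpose, PL.H804.hd_symm, transpose_one]

theorem sk_sq (k : ℕ) : sk k κ * sk k κ = 1 := by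
  rw [sk, ← mul_kronecker_mul, PL.H804.hd_sq, Matrix.one_mul, one_kronecker_one]

theorem sk_split (k : ℕ) : (sk (k + 1) κ).submatrix (eS k κ) (eS k κ) = rad (Ix k × κ) := by
  have h : ∀ (p q : Ix k ⊕ Ix k) (a b : κ), sk (k + 1) κ (p, a) (q, b)
      = rad (Ix k) p q * (1 : Matrix κ κ ℝ) a b := fun p q a b => rfl
  ext p q
  rw [submatrix_apply]
  rcases p with ⟨i, a⟩ | ⟨i, a⟩ <;> rcases q with ⟨j, b⟩ | ⟨j, b⟩
  · refine (h (Sum.inl i) (Sum.inl j) a b).trans ?_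
    simp only [rad, fromBlocks_apply₁₁, Matrix.one_apply, Prod.mk.injEq]
    by_cases h1 : i = j <;> by_cases h2 : a = b <;> simp [h1, h2]
  · refine (h (Sum.inl i) (Sum.inr j) a b).trans ?_
    simp [rad]
  · refine (h (Sum.inr i) (Sum.inl j) a b).trans ?_
    simp [rad]
  · refine (h (Sum.inr i) (Sum.inr j) a b).trans ?_
    simp only [rad, fromBlocks_apply₂₂, Matrix.neg_apply, Matrix.one_apply, Prod.mk.injEq]
    by_cases h1 : i = j <;> by_cases h2 : a = b <;> simp [h1, h2]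

theorem BM_ll (k : ℕ) (m : ℤ) (F : ℤ → ℤ → Matrix κ κ ℝ) :
    ((BM (k + 1) m F).submatrix (eS k κ) (eS k κ)).toBlocks₁₁
      = (1 / 2 : ℝ) • BM k (2 * m) F := by
  ext ⟨i, a⟩ ⟨j, b⟩
  have h : ((BM (k + 1) m F).submatrix (eS k κ) (eS k κ)).toBlocks₁₁ (i, a) (j, b)
      = ((2 : ℝ) ^ (k + 1))⁻¹ * F (2 ^ (k + 1) * m + val k i) (2 ^ (k + 1) * m + val k j) a b := rfl
  rw [h, Matrix.smul_apply, BM, smul_eq_mul, pow_succ, mul_inv,
    show (2 : ℤ) ^ (k + 1) * m = 2 ^ k * (2 * m) by ring]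
  ring

theorem BM_rr (k : ℕ) (m : ℤ) (F : ℤ → ℤ → Matrix κ κ ℝ) :
    ((BM (k + 1) m F).submatrix (eS k κ) (eS k κ)).toBlocks₂₂
      = (1 / 2 : ℝ) • BM k (2 * m + 1) F := by
  ext ⟨i, a⟩ ⟨j, b⟩
  have h : ((BM (k + 1) m F).submatrix (eS k κ) (eS k κ)).toBlocks₂₂ (i, a) (j, b)
      = ((2 : ℝ) ^ (k + 1))⁻¹ * F (2 ^ (k + 1) * m + ((2 ^ k + val k i : ℕ) : ℤ))
        (2 ^ (k + 1) * m + ((2 ^ k + val k j : ℕ) : ℤ)) a b := rfl
  have e : ∀ j : Ix k, (2 : ℤ) ^ (k + 1) * m + ((2 ^ k + val k j : ℕ) : ℤ)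
      = 2 ^ k * (2 * m + 1) + val k j := by
    intro j
    push_cast; ring
  rw [h, e, e, Matrix.smul_apply, BM, smul_eq_mul, pow_succ, mul_inv]
  ring

theorem BM_split (k : ℕ) (m : ℤ) (F : ℤ → ℤ → Matrix κ κ ℝ) :
    (BM (k + 1) m F).submatrix (eS k κ) (eS k κ)
      + rad (Ix k × κ) * (BM (k + 1) m F).submatrix (eS k κ) (eS k κ) * rad (Ix k × κ)
      = bd (BM k (2 * m) F) (BM k (2 * m + 1) F) := by
  rw [P075.R.refl_add, BM_ll, BM_rr, smul_smul, smul_smul]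
  norm_num

/-! ### The saturated slot -/

theorem CP_psd (c : ℤ → ℤ → κ → ℝ) (k a : ℕ) (n m : ℤ) : (CP c k a n m).PosSemidef := by
  have e : CP c k a n m = (((2 : ℝ) ^ k)⁻¹ * ((2 : ℝ) ^ a)⁻¹) • ∑ y ∈ iv a n,
      vecMulVec (fun p : Ix k × κ => c (2 ^ k * m + val k p.1) y p.2)
        (star fun p : Ix k × κ => c (2 ^ k * m + val k p.1) y p.2) := by
    ext p q
    simp only [CP, BM, XR, Matrix.smul_apply, Matrix.sum_apply, vecMulVec_apply, smul_eq_mul,
      star_trivial]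
    ring
  rw [e]
  exact (posSemidef_sum _ fun y _ => posSemidef_vecMulVec_self_star _).smul (by positivity)

/-- the scaled Gram matrix of the slot -/
def XP (s : ℝ) (c : ℤ → ℤ → κ → ℝ) (k a : ℕ) (n m : ℤ) : Matrix (Ix k × κ) (Ix k × κ) ℝ :=
  (s ^ 2)⁻¹ • CP c k a n m

/-- the saturated slot -/
def QP (s : ℝ) (c : ℤ → ℤ → κ → ℝ) (k a : ℕ) (n m : ℤ) : Matrix (Ix k × κ) (Ix k × κ) ℝ :=
  s ^ 2 • phi (XP s c k a n m)

/-- its energy -/
def gs (s : ℝ) (c : ℤ → ℤ → κ → ℝ) (k a : ℕ) (n m : ℤ) : ℝ := GX (XP s c k a n m)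

/-- its potential -/
def qs (s : ℝ) (c : ℤ → ℤ → κ → ℝ) (k a : ℕ) (n m : ℤ) : ℝ := 4 * s ^ 4 * gs s c k a n m

theorem XP_psd (s : ℝ) (c : ℤ → ℤ → κ → ℝ) (k a : ℕ) (n m : ℤ) : (XP s c k a n m).PosSemidef :=
  (CP_psd c k a n m).smul (by positivity)

theorem XP_out (s : ℝ) (c : ℤ → ℤ → κ → ℝ) {N k : ℕ} {a : ℕ} (h1 : k ≤ a) (h2 : a < N) (n m : ℤ) :
    XP s c k (a + 1) n m = (1 / 2 : ℝ) • (XP s c k a (2 * n) m + XP s c k a (2 * n + 1) m) := by
  unfold XP
  rw [CP_out N k c a h1 h2 n m, smul_comm, smul_add]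

theorem XP_split (s : ℝ) (c : ℤ → ℤ → κ → ℝ) (k a : ℕ) (n m : ℤ) :
    (XP s c (k + 1) a n m).submatrix (eS k κ) (eS k κ)
      + rad (Ix k × κ) * (XP s c (k + 1) a n m).submatrix (eS k κ) (eS k κ) * rad (Ix k × κ)
      = bd (XP s c k a n (2 * m)) (XP s c k a n (2 * m + 1)) := by
  unfold XP CP
  rw [BM_smul, BM_smul, BM_smul]
  exact BM_split k m _

theorem QP_tr (s : ℝ) (c : ℤ → ℤ → κ → ℝ) (k a : ℕ) (n m : ℤ) :
    (QP s c k a n m)ᵀ = QP s c k a n m := by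
  rw [QP, transpose_smul, P075.phi_symm (XP_psd s c k a n m)]

theorem QP_psd (s : ℝ) (c : ℤ → ℤ → κ → ℝ) (k a : ℕ) (n m : ℤ) : (QP s c k a n m).PosSemidef :=
  (P075.phi_psd (XP_psd s c k a n m)).smul (by positivity)

theorem QP_cap (s : ℝ) (c : ℤ → ℤ → κ → ℝ) (k a : ℕ) (n m : ℤ) :
    (s ^ 2 • (1 : Matrix (Ix k × κ) (Ix k × κ) ℝ) - QP s c k a n m).PosSemidef := by
  rw [QP, ← smul_sub]
  exact (P075.one_sub_phi_psd (XP_psd s c k a n m)).smul (by positivity)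

theorem QP_le {s : ℝ} (hs : s ≠ 0) (c : ℤ → ℤ → κ → ℝ) (k a : ℕ) (n m : ℤ) :
    (CP c k a n m - QP s c k a n m).PosSemidef := by
  have h := (phi_le (XP_psd s c k a n m)).smul (show (0 : ℝ) ≤ s ^ 2 by positivity)
  rw [smul_sub] at h
  have e : s ^ 2 • XP s c k a n m = CP c k a n m := by
    rw [XP, smul_smul, mul_inv_cancel₀ (by positivity), one_smul]
  rwa [e] at h

/-- **The increments of the saturated slot are paid by its energy.** -/
theorem QP_potM (s : ℝ) (c : ℤ → ℤ → κ → ℝ) (N k : ℕ) : PotM N k (QP s c k) (qs s c k) := by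
  refine ⟨fun a h1 h2 n m => ?_, fun n m => ?_⟩
  · have p0 := XP_psd s c k a (2 * n) m
    have p1 := XP_psd s c k a (2 * n + 1) m
    have h := PL.H588.sq_child p0 p1
    have h' := delt_le p0 p1
    rw [← XP_out s c h1 h2] at h h'
    unfold QP qs gs
    rw [← smul_sub, ← smul_sub]
    simp only [smul_mul_smul_comm, trace_smul, smul_eq_mul]
    have h4 : (0 : ℝ) ≤ s ^ 2 * s ^ 2 := by positivity
    have h5 := mul_le_mul_of_nonneg_left (h.trans (mul_le_mul_of_nonneg_left h' (by norm_num))) h4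
    calc _ = s ^ 2 * s ^ 2 * (((phi (XP s c k a (2 * n) m) - phi (XP s c k (a + 1) n m)) *
          (phi (XP s c k a (2 * n) m) - phi (XP s c k (a + 1) n m))).trace +
        ((phi (XP s c k a (2 * n + 1) m) - phi (XP s c k (a + 1) n m)) *
          (phi (XP s c k a (2 * n + 1) m) - phi (XP s c k (a + 1) n m))).trace) := by ring
      _ ≤ _ := h5
      _ = _ := by ring
  · unfold QP qs gs
    rw [smul_mul_smul_comm, trace_smul, smul_eq_mul]
    have h := PL.H588.phi_sq_le_GX (XP_psd s c k N n m)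
    have h5 := mul_le_mul_of_nonneg_left h (show (0 : ℝ) ≤ s ^ 2 * s ^ 2 by positivity)
    refine h5.trans (le_of_eq (by ring))

theorem QP_bd (s : ℝ) (c : ℤ → ℤ → κ → ℝ) (k a : ℕ) (n m : ℤ) :
    (QP s c k a n m * QP s c k a n m).trace ≤ qs s c k a n m := by
  unfold QP qs gs
  rw [smul_mul_smul_comm, trace_smul, smul_eq_mul]
  have h := PL.H588.phi_sq_le_GX (XP_psd s c k a n m)
  have h5 := mul_le_mul_of_nonneg_left h (show (0 : ℝ) ≤ s ^ 2 * s ^ 2 by positivity)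
  refine h5.trans (le_of_eq (by ring))

/-- the gap of the saturated slot -/
def gp (s : ℝ) (c : ℤ → ℤ → κ → ℝ) (k a : ℕ) (n m : ℤ) : ℝ :=
  (phi (XP s c k a n m) * (sk k κ * phi (XP s c k a n m) * sk k κ)).trace

/-- transport to the two halves -/
theorem trace_split (k : ℕ) (P Q : Matrix (Ix (k + 1) × κ) (Ix (k + 1) × κ) ℝ) :
    (P * (sk (k + 1) κ * Q * sk (k + 1) κ)).trace
      = (P.submatrix (eS k κ) (eS k κ) * (rad (Ix k × κ) * Q.submatrix (eS k κ) (eS k κ)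
        * rad (Ix k × κ))).trace := by
  rw [← sk_split, mul_sub', mul_sub', mul_sub', trace_sub']

/-- the hub step of the energy with its gap -/
theorem gs_mid (s : ℝ) (c : ℤ → ℤ → κ → ℝ) (k a : ℕ) (n m : ℤ) :
    gp s c (k + 1) a n m + 2 * gs s c (k + 1) a n m
      ≤ gs s c k a n (2 * m) + gs s c k a n (2 * m + 1) := by
  have h := gap_abs (X := (XP s c (k + 1) a n m).submatrix (eS k κ) (eS k κ))
    ((XP_psd s c (k + 1) a n m).submatrix _) (XP_psd s c k a n (2 * m))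
    (XP_psd s c k a n (2 * m + 1)) (XP_split s c k a n m)
  rw [GX_sub, phi_sub, ← trace_split] at h
  unfold gp gs
  linarith

theorem gp_nonneg (s : ℝ) (c : ℤ → ℤ → κ → ℝ) (k a : ℕ) (n m : ℤ) : 0 ≤ gp s c k a n m := by
  have h := P075.phi_psd (XP_psd s c k a n m)
  exact P075.trace_mul_nonneg h (P075.psd_conj_symm h (sk_tr k))

end

end Vale.Agent.P141.H874
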