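import Vale.Agent.P141.H874.LightP

/-!
# The light pair: the step and the total over all scales

`node_le` : one node; `light_total` : the sum of the gains
`tr (LP * (sk * QP * sk))` over all scales and a plane, with numbers for the changes.
-/

set_option linter.unusedSectionVars false

namespace Vale.Agent.P141.H874

open scoped Kronecker
open Finset Matrix Vale.Agent.P141.PL Vale.Agent.P141.PL.H103 Vale.Agent.P141.H103
open Vale.Agent.P075 (Ix val res phi ld GX delt hdiff bd rad)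
open Vale.Agent.P141.PL.H588 (hd)
open Vale.Agent.P141.H999 (Sq fm hs fInc light_cs light_l2 light_defect)

noncomputable section

variable {κ : Type*} [Fintype κ] [DecidableEq κ]
variable {l : ℝ} {N : ℕ} {G K : ℤ → ℕ → ℤ → Matrix κ κ ℝ}

/-- the increment of the potential of the light slot -/
def dph (l : ℝ) (K : ℤ → ℕ → ℤ → Matrix κ κ ℝ) (b : ℤ → ℤ → κ → ℝ) (k : ℕ) (n m : ℤ) : ℝ :=
  ph l K b k k (2 * n) m + ph l K b k k (2 * n + 1) m - 2 * ph l K b k (k + 1) n m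

/-- the increment of the energy of the saturated slot -/
def dgs (s : ℝ) (c : ℤ → ℤ → κ → ℝ) (k : ℕ) (n m : ℤ) : ℝ :=
  gs s c k k (2 * n) m + gs s c k k (2 * n + 1) m - 2 * gs s c k (k + 1) n m

/-- the gain at a node -/
def gn (l : ℝ) (K : ℤ → ℕ → ℤ → Matrix κ κ ℝ) (s : ℝ) (b c : ℤ → ℤ → κ → ℝ) (k : ℕ)
    (n n' m : ℤ) : ℝ :=
  (LP l K b k k n m * (sk k κ * QP s c k k n' m * sk k κ)).trace

theorem tr_DB_CP (k a : ℕ) (n' m : ℤ) (M : ℤ → Matrix κ κ ℝ) (c : ℤ → ℤ → κ → ℝ) :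
    (DB k m M * CP c k a n' m).trace = ((2 : ℝ) ^ k)⁻¹ * ∑ x ∈ iv k m,
      ((2 : ℝ) ^ a)⁻¹ * ∑ z ∈ iv a n', c x z ⬝ᵥ (M x *ᵥ c x z) := by
  rw [trace_mul_bk, H588.sum_iv, Finset.mul_sum]
  refine Finset.sum_congr rfl fun i _ => ?_
  have e : ∀ j, (bk (DB k m M) i j * bk (CP c k a n' m) j i).trace = if i = j then
      (M (2 ^ k * m + val k i) * bk (CP c k a n' m) i i).trace else 0 := by
    intro j
    rw [bk_DB]
    by_cases hij : i = j
    · subst hij
      rw [if_pos rfl, if_pos rfl]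
    · rw [if_neg hij, if_neg hij, Matrix.zero_mul, trace_zero]
  simp only [e, Finset.sum_ite_eq, Finset.mem_univ, if_true]
  rw [CP, bk_BM, Matrix.mul_smul, trace_smul, smul_eq_mul]
  congr 1
  unfold XR
  rw [Matrix.mul_smul, trace_smul, smul_eq_mul]
  congr 1
  rw [Finset.mul_sum, trace_sum]
  refine Finset.sum_congr rfl fun z _ => ?_
  rw [mul_vecMulVec, trace_vecMulVec, dotProduct_comm]

theorem dc_le (h : ∀ x, H420.Tr l N (G x) (K x)) {s : ℝ} (hs : s ≠ 0) (c : ℤ → ℤ → κ → ℝ)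
    {k : ℕ} (hk : k < N) (n n' m : ℤ) :
    (DB k m (fun x => H999.del (√l) (K x (k + 1) n) (K x k (2 * n)) (K x k (2 * n + 1)))
      * QP s c k (k + 1) n' m).trace ≤ dc l K c k n n' m := by
  have hp := DB_psd (k := k) (m := m) fun x =>
    H999.del_psd (sq_of_tr h hk n x) (Real.sqrt_nonneg l)
  have h1 := P075.trace_mul_le_right hp (QP_le hs c k (k + 1) n' m)
  rw [tr_DB_CP] at h1
  exact h1

/-- **One node.** -/
theorem node_le (h : ∀ x, H420.Tr l N (G x) (K x)) {k : ℕ} (hk : k < N) {μ s Kop : ℝ}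
    (hμ : 0 ≤ μ) (hs : s ≠ 0) (hK0 : 0 ≤ Kop) (b c : ℤ → ℤ → κ → ℝ) (n n' m : ℤ)
    (cap1 : (Kop • (1 : Matrix (Ix (k + 1) × κ) (Ix (k + 1) × κ) ℝ)
      - LP l K b (k + 1) (k + 1) n m).PosSemidef)
    (cap0 : ∀ n m, (Kop • (1 : Matrix (Ix k × κ) (Ix k × κ) ℝ) - LP l K b k k n m).PosSemidef) :
    ((μ • LP l K b (k + 1) (k + 1) n m) * QP s c (k + 1) (k + 1) n' m).trace
      + (μ / 2 * gn l K s b c (k + 1) n n' m - μ * Kop * s ^ 2 * gp s c (k + 1) (k + 1) n' m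
        - (1 / 2 * μ ^ 2 * (1 / 4 * (dph l K b k n (2 * m) + dph l K b k n (2 * m + 1)))
          + 3 / 2 * s ^ 2 * (1 / 2 * (dc l K c k n n' (2 * m) + dc l K c k n n' (2 * m + 1)))
          + μ * Kop * s ^ 2 * (1 / 2 * (dgs s c k n' (2 * m) + dgs s c k n' (2 * m + 1)))))
      ≤ 1 / 2 * ((avO (fun a n m => μ • LP l K b k a n m) k n (2 * m)
          * avO (QP s c k) k n' (2 * m)).trace
        + (avO (fun a n m => μ • LP l K b k a n m) k n (2 * m + 1)
          * avO (QP s c k) k n' (2 * m + 1)).trace) := by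
  have hs2 : (0 : ℝ) ≤ s ^ 2 := by positivity
  -- the middle step
  have p1 := (LP_psd h b (k + 1) (k + 1) n m).submatrix (eS k κ)
  have c1 := cap1.submatrix (eS k κ)
  have e1 : (Kop • (1 : Matrix (Ix (k + 1) × κ) (Ix (k + 1) × κ) ℝ)
      - LP l K b (k + 1) (k + 1) n m).submatrix (eS k κ) (eS k κ)
      = Kop • (1 : Matrix ((Ix k × κ) ⊕ (Ix k × κ)) ((Ix k × κ) ⊕ (Ix k × κ)) ℝ)
        - (LP l K b (k + 1) (k + 1) n m).submatrix (eS k κ) (eS k κ) := by
    rw [← submatrix_one_equiv (eS k κ)]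
    rfl
  rw [e1] at c1
  have hmid := mid_abs p1 c1 hK0 (BM_ll k m (LM l K b (k + 1) n)) (BM_rr k m (LM l K b (k + 1) n))
    ((XP_psd s c (k + 1) (k + 1) n' m).submatrix _) (XP_psd s c k (k + 1) n' (2 * m))
    (XP_psd s c k (k + 1) n' (2 * m + 1)) (XP_split s c k (k + 1) n' m)
  rw [phi_sub, ← trace_split, ← trace_split, mul_sub', trace_sub'] at hmid
  have hmid' : (LP l K b (k + 1) (k + 1) n m * phi (XP s c (k + 1) (k + 1) n' m)).trace
      + 1 / 2 * (LP l K b (k + 1) (k + 1) n m * (sk (k + 1) κ *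
        phi (XP s c (k + 1) (k + 1) n' m) * sk (k + 1) κ)).trace
      ≤ 1 / 2 * ((LP l K b k (k + 1) n (2 * m) * phi (XP s c k (k + 1) n' (2 * m))).trace
        + (LP l K b k (k + 1) n (2 * m + 1) * phi (XP s c k (k + 1) n' (2 * m + 1))).trace)
        + Kop * gp s c (k + 1) (k + 1) n' m := hmid
  -- the outer step at one half
  have out : ∀ m, μ * (LP l K b k (k + 1) n m * QP s c k (k + 1) n' m).trace
      ≤ (avO (fun a n m => μ • LP l K b k a n m) k n m * avO (QP s c k) k n' m).trace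
        + (1 / 4 * μ ^ 2 * dph l K b k n m + 3 / 2 * s ^ 2 * dc l K c k n n' m
          + μ * Kop * s ^ 2 * dgs s c k n' m) := by
    intro m
    have d1 := drift h b k hk n m (QP_psd s c k (k + 1) n' m) (QP_cap s c k (k + 1) n' m) μ
    have d2 := dc_le h hs c hk n n' m
    have x0 := XP_psd s c k k (2 * n') m
    have x1 := XP_psd s c k k (2 * n' + 1) m
    set A : Matrix (Ix k × κ) (Ix k × κ) ℝ :=
      (1 / 2 : ℝ) • (LP l K b k k (2 * n) m + LP l K b k k (2 * n + 1) m) with hA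
    have cA : (Kop • (1 : Matrix (Ix k × κ) (Ix k × κ) ℝ) - A).PosSemidef := by
      have e : Kop • (1 : Matrix (Ix k × κ) (Ix k × κ) ℝ) - A
          = (1 / 2 : ℝ) • ((Kop • (1 : Matrix (Ix k × κ) (Ix k × κ) ℝ) - LP l K b k k (2 * n) m)
            + (Kop • (1 : Matrix (Ix k × κ) (Ix k × κ) ℝ) - LP l K b k k (2 * n + 1) m)) := by
        rw [hA]
        module
      rw [e]
      exact ((cap0 _ _).add (cap0 _ _)).smul (by norm_num)
    have d3 := out_abs cA x0 x1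
    have d4 := delt_le x0 x1
    have xo := XP_out s c (N := N) le_rfl hk n' m
    rw [← xo] at d3 d4
    have d5 : (delt (XP s c k k (2 * n') m) (XP s c k k (2 * n' + 1) m)).trace
        ≤ dgs s c k n' m := d4
    have eA : 1 / 2 * ((LP l K b k k (2 * n) m * QP s c k (k + 1) n' m).trace
        + (LP l K b k k (2 * n + 1) m * QP s c k (k + 1) n' m).trace)
        = s ^ 2 * (A * phi (XP s c k (k + 1) n' m)).trace := by
      rw [hA, QP]
      simp only [Matrix.mul_smul, Matrix.smul_mul, Matrix.add_mul, trace_smul, trace_add,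
        smul_eq_mul]
      ring
    have eB : (avO (fun a n m => μ • LP l K b k a n m) k n m * avO (QP s c k) k n' m).trace
        = μ * (s ^ 2 * (A * ((1 / 2 : ℝ) • (phi (XP s c k k (2 * n') m)
          + phi (XP s c k k (2 * n' + 1) m)))).trace) := by
      rw [hA]
      unfold avO QP
      simp only [Matrix.mul_smul, Matrix.smul_mul, Matrix.add_mul, Matrix.mul_add, trace_smul,
        trace_add, smul_eq_mul]
      ring
    rw [eB]
    rw [eA] at d1
    have hμs : 0 ≤ μ * s ^ 2 := by positivity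
    have d6 := mul_le_mul_of_nonneg_left (d3.trans (add_le_add_right
      (mul_le_mul_of_nonneg_left d5 hK0) _)) hμs
    have d7 := mul_le_mul_of_nonneg_left d2 (show (0 : ℝ) ≤ 3 / 2 * s ^ 2 by positivity)
    unfold dph
    linarith
  have o1 := out (2 * m)
  have o2 := out (2 * m + 1)
  have hm2 := mul_le_mul_of_nonneg_left hmid' (show 0 ≤ μ * s ^ 2 by positivity)
  have eC : ((μ • LP l K b (k + 1) (k + 1) n m) * QP s c (k + 1) (k + 1) n' m).trace
      = μ * s ^ 2 * (LP l K b (k + 1) (k + 1) n m * phi (XP s c (k + 1) (k + 1) n' m)).trace := by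
    unfold QP
    simp only [Matrix.mul_smul, Matrix.smul_mul, trace_smul, smul_eq_mul]
    ring
  have eD : gn l K s b c (k + 1) n n' m = s ^ 2 * (LP l K b (k + 1) (k + 1) n m *
      (sk (k + 1) κ * phi (XP s c (k + 1) (k + 1) n' m) * sk (k + 1) κ)).trace := by
    unfold gn QP
    simp only [Matrix.mul_smul, Matrix.smul_mul, trace_smul, smul_eq_mul]
  have eE : ∀ m, (LP l K b k (k + 1) n m * QP s c k (k + 1) n' m).trace
      = s ^ 2 * (LP l K b k (k + 1) n m * phi (XP s c k (k + 1) n' m)).trace := by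
    intro m
    unfold QP
    simp only [Matrix.mul_smul, trace_smul, smul_eq_mul]
  rw [eE] at o1 o2
  rw [eC, eD]
  linarith

/-! ### Plane sums -/

theorem GW_add (N : ℕ) (R S T : ℤ) (k : ℕ) (c : ℤ) (f g : ℤ → ℤ → ℤ → ℝ) :
    GW N R S T k c (fun n n' m => f n n' m + g n n' m)
      = GW N R S T k c f + GW N R S T k c g := by
  unfold GW
  rw [← mul_add, ← Finset.sum_add_distrib]
  congr 1
  refine Finset.sum_congr rfl fun m _ => ?_
  rw [← Finset.sum_add_distrib]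
  refine Finset.sum_congr rfl fun n _ => ?_
  split_ifs <;> simp

theorem GW_mul (N : ℕ) (R S T : ℤ) (k : ℕ) (c : ℤ) (a : ℝ) (f : ℤ → ℤ → ℤ → ℝ) :
    GW N R S T k c (fun n n' m => a * f n n' m) = a * GW N R S T k c f := by
  unfold GW
  rw [mul_left_comm]
  congr 1
  rw [Finset.mul_sum]
  refine Finset.sum_congr rfl fun m _ => ?_
  rw [Finset.mul_sum]
  refine Finset.sum_congr rfl fun n _ => ?_
  split_ifs <;> simp

theorem EP_mul (N : ℕ) (R S : ℤ) (k : ℕ) (q : ℝ) (φ : ℕ → ℤ → ℤ → ℝ) (a : ℕ) :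
    EP N R S k (fun a n m => q * φ a n m) a = q * EP N R S k φ a := by
  unfold EP
  simp only [← Finset.mul_sum]
  ring

/-- a hub step at every node gives the hub step of the energies -/
theorem EP_hub {N k a : ℕ} (hk : k < N) (R S : ℤ) {φ φ' : ℕ → ℤ → ℤ → ℝ}
    (h : ∀ n m, 2 * φ' a n m ≤ φ a n (2 * m) + φ a n (2 * m + 1)) :
    EP N R S (k + 1) φ' a ≤ EP N R S k φ a := by
  have e : N - k = (N - (k + 1)) + 1 := by omega
  unfold EP
  rw [e, sum_iv_pair, show (2 : ℝ) ^ a * 2 ^ (k + 1) = 2 ^ a * 2 ^ k * 2 by rw [pow_succ]; ring,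
    mul_assoc _ (2 : ℝ), Finset.mul_sum]
  refine mul_le_mul_of_nonneg_left (Finset.sum_le_sum fun m _ => ?_) (by positivity)
  rw [Finset.mul_sum, ← Finset.sum_add_distrib]
  exact Finset.sum_le_sum fun n _ => h n m

/-- plane sum of the gaps of the saturated slot -/
theorem GW_gap {N k : ℕ} (hk : k < N) (R S T : ℤ) (c₀ : ℤ) (s : ℝ) (c : ℤ → ℤ → κ → ℝ) :
    GW N R S T (k + 1) c₀ (fun _ n' m => gp s c (k + 1) (k + 1) n' m)
      ≤ 2 * EP N T S k (gs s c k) (k + 1) - 2 * EP N T S (k + 1) (gs s c (k + 1)) (k + 1) := by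
  refine (GW_right N R S T (k + 1) c₀ (β := fun n' m => gp s c (k + 1) (k + 1) n' m)
    (fun n' m => gp_nonneg ..)).trans ?_
  have e : N - k = (N - (k + 1)) + 1 := by omega
  unfold EP
  rw [e, sum_iv_pair]
  have h4 : (4 : ℝ) ^ (k + 1) = 2 ^ (k + 1) * 2 ^ k * 2 := by
    rw [show (4 : ℝ) = 2 * 2 by norm_num, mul_pow, pow_succ]; ring
  have h5 : (2 : ℝ) ^ (k + 1) * 2 ^ (k + 1) = 2 ^ (k + 1) * 2 ^ k * 2 := by
    rw [pow_succ]; ring
  rw [h4, h5]
  have key : ∑ m ∈ iv (N - (k + 1)) S, ∑ n ∈ iv (N - (k + 1)) T, gp s c (k + 1) (k + 1) n m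
      ≤ ∑ m ∈ iv (N - (k + 1)) S, (∑ n ∈ iv (N - (k + 1)) T, gs s c k (k + 1) n (2 * m)
        + ∑ n ∈ iv (N - (k + 1)) T, gs s c k (k + 1) n (2 * m + 1))
        - 2 * ∑ m ∈ iv (N - (k + 1)) S, ∑ n ∈ iv (N - (k + 1)) T, gs s c (k + 1) (k + 1) n m := by
    rw [Finset.mul_sum, ← Finset.sum_sub_distrib]
    refine Finset.sum_le_sum fun m _ => ?_
    rw [Finset.mul_sum, ← Finset.sum_add_distrib, ← Finset.sum_sub_distrib]
    refine Finset.sum_le_sum fun n _ => ?_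
    have := gs_mid s c k (k + 1) n m
    linarith
  have key2 := mul_le_mul_of_nonneg_left key
    (show (0 : ℝ) ≤ 2 ^ (k + 1) * 2 ^ k * 2 by positivity)
  refine key2.trans (le_of_eq (by ring))

/-- plane sum of the increments of the saturated slot -/
theorem GW_dgs {N k : ℕ} (hk : k < N) (R S T : ℤ) (c₀ : ℤ) (s : ℝ) (c : ℤ → ℤ → κ → ℝ) :
    GW N R S T (k + 1) c₀ (fun _ n' m => 1 / 2 * (dgs s c k n' (2 * m) + dgs s c k n' (2 * m + 1)))
      ≤ 2 * EP N T S k (gs s c k) k - 2 * EP N T S k (gs s c k) (k + 1) := by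
  have h0 : ∀ n m, 0 ≤ dgs s c k n m := by
    intro n m
    have x0 := XP_psd s c k k (2 * n) m
    have x1 := XP_psd s c k k (2 * n + 1) m
    have d4 := delt_le x0 x1
    rw [← XP_out s c (N := N) le_rfl hk n m] at d4
    exact (P075.delt_psd x0 x1).trace_nonneg.trans d4
  refine (GW_right N R S T (k + 1) c₀
    (β := fun n' m => 1 / 2 * (dgs s c k n' (2 * m) + dgs s c k n' (2 * m + 1)))
    (fun n' m => by have := h0 n' (2 * m); have := h0 n' (2 * m + 1); positivity)).trans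
    (le_of_eq ?_)
  have e : N - k = (N - (k + 1)) + 1 := by omega
  unfold EP dgs
  rw [e, sum_iv_pair, sum_iv_pair (N - (k + 1)) S]
  simp only [sum_iv_pair (N - (k + 1)) T, ← mul_sum, sum_add_distrib, sum_sub_distrib]
  rw [pow_succ, pow_succ]
  have h4 : (4 : ℝ) ^ k = 2 ^ k * 2 ^ k := by rw [← mul_pow]; norm_num
  rw [h4]
  ring

/-- the node data of the slot `c`, letters of `H633.dTot` -/
def dcc (l : ℝ) (K : ℤ → ℕ → ℤ → Matrix κ κ ℝ) (c : ℤ → ℤ → κ → ℝ) (k : ℕ) (n n' m : ℤ) : ℝ :=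
  ((4 : ℝ) ^ (k + 1))⁻¹ * ∑ x ∈ iv (k + 1) m, ∑ z ∈ iv (k + 1) n',
    c x z ⬝ᵥ (H633.del l (K x (k + 1) n) (K x k (2 * n)) (K x k (2 * n + 1)) *ᵥ c x z)

theorem dcc_eq (l : ℝ) (K : ℤ → ℕ → ℤ → Matrix κ κ ℝ) (c : ℤ → ℤ → κ → ℝ) (k : ℕ)
    (n n' m : ℤ) :
    1 / 2 * (dc l K c k n n' (2 * m) + dc l K c k n n' (2 * m + 1)) = dcc l K c k n n' m := by
  unfold dc dcc
  rw [sum_iv_half, ← Finset.mul_sum, ← Finset.mul_sum]
  have e : ((4 : ℝ) ^ (k + 1))⁻¹ = 1 / 2 * (((2 : ℝ) ^ k)⁻¹ * ((2 : ℝ) ^ (k + 1))⁻¹) := by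
    rw [show (4 : ℝ) = 2 * 2 by norm_num, mul_pow, mul_inv, pow_succ, mul_inv]
    ring
  rw [e]
  ring

theorem MW_mul {ι : Type*} [Fintype ι] (N : ℕ) (R S T : ℤ) (k : ℕ) (c : ℤ) (a : ℝ)
    (p q : ℤ → ℤ → Matrix ι ι ℝ) :
    MW N R S T k c (fun n m => a • p n m) q = a * MW N R S T k c p q := by
  unfold MW
  rw [mul_left_comm]
  congr 1
  rw [Finset.mul_sum]
  refine Finset.sum_congr rfl fun m _ => ?_
  rw [Finset.mul_sum]
  refine Finset.sum_congr rfl fun n _ => ?_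
  split_ifs
  · rw [Matrix.smul_mul, trace_smul, smul_eq_mul]
  · simp

theorem WW_mul (N k : ℕ) (q : ℝ) (e : ℕ → ℝ) : WW N k (fun a => q * e a) = q * WW N k e := by
  unfold WW
  rw [Finset.mul_sum]
  exact Finset.sum_congr rfl fun r _ => by ring

theorem smul_potM {ι : Type*} [Fintype ι] {N k : ℕ} {P : ℕ → ℤ → ℤ → Matrix ι ι ℝ}
    {φ : ℕ → ℤ → ℤ → ℝ} (h : PotM N k P φ) (μ : ℝ) :
    PotM N k (fun a n m => μ • P a n m) (fun a n m => μ ^ 2 * φ a n m) := by
  have h0 : (0 : ℝ) ≤ μ ^ 2 := sq_nonneg μ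
  have e : ∀ A B : Matrix ι ι ℝ, ((μ • A - μ • B) * (μ • A - μ • B)).trace
      = μ ^ 2 * ((A - B) * (A - B)).trace := by
    intro A B
    rw [← smul_sub, Matrix.smul_mul, Matrix.mul_smul, trace_smul, trace_smul, smul_eq_mul,
      smul_eq_mul]
    ring
  refine ⟨fun a h1 h2 n m => ?_, fun n m => ?_⟩
  · have q := mul_le_mul_of_nonneg_left (h.1 a h1 h2 n m) h0
    rw [e, e]
    linarith
  · have q := mul_le_mul_of_nonneg_left (h.2 n m) h0
    rw [Matrix.smul_mul, Matrix.mul_smul, trace_smul, trace_smul, smul_eq_mul, smul_eq_mul]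
    linarith

/-- telescope of energies with changes -/
theorem tele_E {k₀ N : ℕ} (hkN : k₀ ≤ N) {f g : ℕ → ℝ} {y : ℕ → ℝ}
    (hy : ∀ k, k₀ ≤ k → k < N → g k ≤ f k + y k) :
    ∑ k ∈ Ico k₀ N, (g k - f (k + 1)) ≤ f k₀ - f N + ∑ k ∈ Ico k₀ N, y k := by
  have key : ∀ n, k₀ ≤ n → n ≤ N →
      ∑ k ∈ Ico k₀ n, (g k - f (k + 1)) ≤ f k₀ - f n + ∑ k ∈ Ico k₀ n, y k := by
    intro n hn
    induction n, hn using Nat.le_induction with
    | base => intro _; simp
    | succ n hn ih =>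
      intro hN
      have q := ih (by omega)
      have q2 := hy n hn (by omega)
      rw [sum_Ico_succ_top hn, sum_Ico_succ_top hn]
      linarith
  exact key N hkN le_rfl

theorem ph_nonneg (h : ∀ x, H420.Tr l N (G x) (K x)) (b : ℤ → ℤ → κ → ℝ) (k a : ℕ) (n m : ℤ) :
    0 ≤ ph l K b k a n m :=
  (P075.trace_sq_nonneg (LP_symm h b k a n m)).trans (LP_pot h b k a n m)

theorem gs_nonneg (s : ℝ) (c : ℤ → ℤ → κ → ℝ) (k a : ℕ) (n m : ℤ) : 0 ≤ gs s c k a n m :=
  PL.H588.GX_nonneg' (XP_psd s c k a n m)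

/-- **The light pair**: the sum of the gains over all scales and a plane. -/
theorem light_total {k₀ : ℕ} (hkN : k₀ ≤ N) (h : ∀ x, H420.Tr l N (G x) (K x)) {R S T : ℤ}
    {co : ℕ → ℤ} (hc : H588.Pl co) {μ s Kop : ℝ} (hμ : 0 ≤ μ) (hs : s ≠ 0) (hK0 : 0 ≤ Kop)
    {b c : ℕ → ℤ → ℤ → κ → ℝ}
    (cap1 : ∀ k, k₀ ≤ k → k < N → ∀ n m,
      (Kop • (1 : Matrix (Ix (k + 1) × κ) (Ix (k + 1) × κ) ℝ)
        - LP l K (b (k + 1)) (k + 1) (k + 1) n m).PosSemidef)
    (cap0 : ∀ k, k₀ ≤ k → k < N → ∀ n m,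
      (Kop • (1 : Matrix (Ix k × κ) (Ix k × κ) ℝ) - LP l K (b (k + 1)) k k n m).PosSemidef)
    {xM xP xQ y z : ℕ → ℝ}
    (hxM : ∀ k, k₀ ≤ k → k < N →
      MW N R S T k (co k) (LP l K (b (k + 1)) k k) (QP s (c (k + 1)) k k)
        ≤ MW N R S T k (co k) (LP l K (b k) k k) (QP s (c k) k k) + xM k)
    (hxP : ∀ k, k₀ ≤ k → k < N → WW N k (EP N R S k (ph l K (b (k + 1)) k))
      ≤ WW N k (EP N R S k (ph l K (b k) k)) + xP k)
    (hxQ : ∀ k, k₀ ≤ k → k < N → WW N k (EP N T S k (gs s (c (k + 1)) k))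
      ≤ WW N k (EP N T S k (gs s (c k) k)) + xQ k)
    (hz : ∀ k, k₀ ≤ k → k < N → EP N R S k (ph l K (b (k + 1)) k) k
      ≤ EP N R S k (ph l K (b k) k) k + z k)
    (hy : ∀ k, k₀ ≤ k → k < N → EP N T S k (gs s (c (k + 1)) k) k
      ≤ EP N T S k (gs s (c k) k) k + y k) :
    μ / 2 * ∑ k ∈ Ico k₀ N, GW N R S T (k + 1) (co (k + 1))
        (gn l K s (b (k + 1)) (c (k + 1)) (k + 1))
      ≤ 37 * (μ ^ 2 * EP N R S k₀ (ph l K (b k₀) k₀) k₀
          + 4 * s ^ 4 * EP N T S k₀ (gs s (c k₀) k₀) k₀)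
        + μ * ∑ k ∈ Ico k₀ N, xM k
        + 9 * (μ ^ 2 * ∑ k ∈ Ico k₀ N, xP k + 4 * s ^ 4 * ∑ k ∈ Ico k₀ N, xQ k)
        + 1 / 2 * μ ^ 2 * (EP N R S k₀ (ph l K (b k₀) k₀) k₀ + ∑ k ∈ Ico k₀ N, z k)
        + 3 / 2 * s ^ 2 * ∑ k ∈ Ico k₀ N, GW N R S T (k + 1) (co (k + 1))
            (dcc l K (c (k + 1)) k)
        + 2 * μ * Kop * s ^ 2 * (EP N T S k₀ (gs s (c k₀) k₀) k₀ + ∑ k ∈ Ico k₀ N, y k) := by
  have hTot := totalP (ι := fun k => Ix k × κ) hkN (R := R) (S := S) (T := T) hc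
    (P := fun k a n m => μ • LP l K (b k) k a n m)
    (P' := fun k a n m => μ • LP l K (b (k + 1)) k a n m)
    (Q := fun k => QP s (c k) k) (Q' := fun k => QP s (c (k + 1)) k)
    (φ := fun k a n m => μ ^ 2 * ph l K (b k) k a n m)
    (φ' := fun k a n m => μ ^ 2 * ph l K (b (k + 1)) k a n m)
    (ψ := fun k => qs s (c k) k) (ψ' := fun k => qs s (c (k + 1)) k)
    (g := fun k n n' m => μ / 2 * gn l K s (b (k + 1)) (c (k + 1)) (k + 1) n n' m
        - μ * Kop * s ^ 2 * gp s (c (k + 1)) (k + 1) (k + 1) n' m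
        - (1 / 2 * μ ^ 2 * (1 / 4 * (dph l K (b (k + 1)) k n (2 * m)
              + dph l K (b (k + 1)) k n (2 * m + 1)))
          + 3 / 2 * s ^ 2 * (1 / 2 * (dc l K (c (k + 1)) k n n' (2 * m)
              + dc l K (c (k + 1)) k n n' (2 * m + 1)))
          + μ * Kop * s ^ 2 * (1 / 2 * (dgs s (c (k + 1)) k n' (2 * m)
              + dgs s (c (k + 1)) k n' (2 * m + 1)))))
    (dE := fun _ _ => 0) (dF := fun _ _ => 0)
    (x := fun k => μ * xM k + 9 * (μ ^ 2 * xP k + 4 * s ^ 4 * xQ k))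
    (smul_potM (LP_potM h (b k₀) k₀) μ) (QP_potM s (c k₀) N k₀)
    (fun k _ _ => smul_potM (LP_potM h (b (k + 1)) k) μ) (fun k _ _ => QP_potM s (c (k + 1)) N k)
    (fun k _ _ n m => by
      have q := mul_le_mul_of_nonneg_left (LP_pot h (b k) k k n m) (sq_nonneg μ)
      simp only [Matrix.smul_mul, Matrix.mul_smul, trace_smul, smul_eq_mul]
      linarith)
    (fun k _ _ n m => QP_bd s (c k) k k n m)
    (fun k a n m => by rw [transpose_smul, LP_symm h])
    (fun k a n m => QP_tr s (c k) k a n m)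
    (fun k a n m => by rw [transpose_smul, LP_symm h])
    (fun k a n m => QP_tr s (c (k + 1)) k a n m)
    (fun k h1 h2 n n' m => by
      have q := node_le h h2 hμ hs hK0 (b (k + 1)) (c (k + 1)) n n' m (cap1 k h1 h2 n m)
        (cap0 k h1 h2)
      exact q)
    (fun k h1 h2 a _ _ => by
      rw [add_zero, EP_mul, EP_mul]
      exact mul_le_mul_of_nonneg_left (EP_hub h2 R S fun n m => ph_mid h (b (k + 1)) k a n m)
        (sq_nonneg μ))
    (fun k h1 h2 a _ _ => by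
      rw [add_zero]
      unfold qs
      rw [EP_mul, EP_mul]
      refine mul_le_mul_of_nonneg_left (EP_hub h2 T S fun n m => ?_) (by positivity)
      have q1 := gs_mid s (c (k + 1)) k a n m
      have q2 := gp_nonneg s (c (k + 1)) (k + 1) a n m
      linarith)
    (fun k h1 h2 => by
      have q1 := mul_le_mul_of_nonneg_left (hxM k h1 h2) hμ
      have q2 := mul_le_mul_of_nonneg_left (hxP k h1 h2) (sq_nonneg μ)
      have q3 := mul_le_mul_of_nonneg_left (hxQ k h1 h2) (show (0 : ℝ) ≤ 4 * s ^ 4 by positivity)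
      unfold qs
      have eP : ∀ b : ℤ → ℤ → κ → ℝ, EP N R S k (fun a n m => μ ^ 2 * ph l K b k a n m)
          = fun a => μ ^ 2 * EP N R S k (ph l K b k) a := fun b => funext fun a => EP_mul ..
      have eQ : ∀ c : ℤ → ℤ → κ → ℝ, EP N T S k (fun a n m => 4 * s ^ 4 * gs s c k a n m)
          = fun a => 4 * s ^ 4 * EP N T S k (gs s c k) a := fun c => funext fun a => EP_mul ..
      rw [eP, eP, eQ, eQ, WW_mul, WW_mul, WW_mul, WW_mul, MW_mul, MW_mul]
      linarith)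
  have WW0 : ∀ k, WW N k (fun _ => (0 : ℝ)) = 0 := fun k => by simp [WW]
  simp only [WW0, add_zero, Finset.sum_const_zero, mul_zero] at hTot
  -- the gains
  have eg : ∀ k, GW N R S T (k + 1) (co (k + 1)) (fun n n' m =>
        μ / 2 * gn l K s (b (k + 1)) (c (k + 1)) (k + 1) n n' m
        - μ * Kop * s ^ 2 * gp s (c (k + 1)) (k + 1) (k + 1) n' m
        - (1 / 2 * μ ^ 2 * (1 / 4 * (dph l K (b (k + 1)) k n (2 * m)
              + dph l K (b (k + 1)) k n (2 * m + 1)))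
          + 3 / 2 * s ^ 2 * (1 / 2 * (dc l K (c (k + 1)) k n n' (2 * m)
              + dc l K (c (k + 1)) k n n' (2 * m + 1)))
          + μ * Kop * s ^ 2 * (1 / 2 * (dgs s (c (k + 1)) k n' (2 * m)
              + dgs s (c (k + 1)) k n' (2 * m + 1)))))
      = μ / 2 * GW N R S T (k + 1) (co (k + 1)) (gn l K s (b (k + 1)) (c (k + 1)) (k + 1))
        + (-(μ * Kop * s ^ 2) * GW N R S T (k + 1) (co (k + 1))
            (fun _ n' m => gp s (c (k + 1)) (k + 1) (k + 1) n' m)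
        + (-(1 / 2 * μ ^ 2) * GW N R S T (k + 1) (co (k + 1)) (fun n _ m =>
            1 / 4 * (dph l K (b (k + 1)) k n (2 * m) + dph l K (b (k + 1)) k n (2 * m + 1)))
        + (-(3 / 2 * s ^ 2) * GW N R S T (k + 1) (co (k + 1)) (dcc l K (c (k + 1)) k)
        + -(μ * Kop * s ^ 2) * GW N R S T (k + 1) (co (k + 1)) (fun _ n' m =>
            1 / 2 * (dgs s (c (k + 1)) k n' (2 * m) + dgs s (c (k + 1)) k n' (2 * m + 1)))))) := by
    intro k
    rw [← GW_mul, ← GW_mul, ← GW_mul, ← GW_mul, ← GW_mul, ← GW_add, ← GW_add, ← GW_add, ← GW_add]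
    congr 1
    funext n n' m
    rw [dcc_eq]
    ring
  simp only [eg] at hTot
  -- the three payers
  have b1 : ∀ k ∈ Ico k₀ N, GW N R S T (k + 1) (co (k + 1))
        (fun _ n' m => gp s (c (k + 1)) (k + 1) (k + 1) n' m)
      + GW N R S T (k + 1) (co (k + 1)) (fun _ n' m =>
            1 / 2 * (dgs s (c (k + 1)) k n' (2 * m) + dgs s (c (k + 1)) k n' (2 * m + 1)))
      ≤ 2 * (EP N T S k (gs s (c (k + 1)) k) k
        - EP N T S (k + 1) (gs s (c (k + 1)) (k + 1)) (k + 1)) := by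
    intro k hk
    have hk2 := (Finset.mem_Ico.1 hk).2
    have q1 := GW_gap hk2 R S T (co (k + 1)) s (c (k + 1))
    have q2 := GW_dgs hk2 R S T (co (k + 1)) s (c (k + 1))
    linarith
  have b2 : ∀ k ∈ Ico k₀ N, GW N R S T (k + 1) (co (k + 1)) (fun n _ m =>
            1 / 4 * (dph l K (b (k + 1)) k n (2 * m) + dph l K (b (k + 1)) k n (2 * m + 1)))
      ≤ EP N R S k (ph l K (b (k + 1)) k) k
        - EP N R S (k + 1) (ph l K (b (k + 1)) (k + 1)) (k + 1) := by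
    intro k hk
    have hk2 := (Finset.mem_Ico.1 hk).2
    have q1 := GW_inc hk2 R S T (co (k + 1)) (φ := ph l K (b (k + 1)) k) (fun n m =>
      le_trans (by
        refine add_nonneg (P075.trace_sq_nonneg ?_) (P075.trace_sq_nonneg ?_) <;>
          rw [transpose_sub, LP_symm h, LP_symm h]) (LP_inc h (b (k + 1)) k hk2 n m))
    have q2 := EP_hub hk2 R S (φ := ph l K (b (k + 1)) k) (φ' := ph l K (b (k + 1)) (k + 1))
      (a := k + 1) fun n m => ph_mid h (b (k + 1)) k (k + 1) n m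
    unfold dph
    linarith
  have c1 := Finset.sum_le_sum b1
  have c2 := Finset.sum_le_sum b2
  have t1 := tele_E hkN (f := fun k => EP N T S k (gs s (c k) k) k)
    (g := fun k => EP N T S k (gs s (c (k + 1)) k) k) hy
  have t2 := tele_E hkN (f := fun k => EP N R S k (ph l K (b k) k) k)
    (g := fun k => EP N R S k (ph l K (b (k + 1)) k) k) hz
  have n1 : 0 ≤ EP N T S N (gs s (c N) N) N := by
    unfold EP
    exact mul_nonneg (by positivity) (Finset.sum_nonneg fun m _ => Finset.sum_nonneg fun n _ =>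
      gs_nonneg ..)
  have n2 : 0 ≤ EP N R S N (ph l K (b N) N) N := by
    unfold EP
    exact mul_nonneg (by positivity) (Finset.sum_nonneg fun m _ => Finset.sum_nonneg fun n _ =>
      ph_nonneg h ..)
  simp only [Finset.sum_add_distrib, ← Finset.mul_sum] at hTot c1
  have hk1 : 0 ≤ μ * Kop * s ^ 2 := by positivity
  have hk2 : 0 ≤ 1 / 2 * μ ^ 2 := by positivity
  have m1 := mul_le_mul_of_nonneg_left (c1.trans (mul_le_mul_of_nonneg_left (t1.trans
    (show _ ≤ EP N T S k₀ (gs s (c k₀) k₀) k₀ + ∑ k ∈ Ico k₀ N, y k by linarith))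
      (by norm_num : (0 : ℝ) ≤ 2))) hk1
  have m2 := mul_le_mul_of_nonneg_left (c2.trans (t2.trans
    (show _ ≤ EP N R S k₀ (ph l K (b k₀) k₀) k₀ + ∑ k ∈ Ico k₀ N, z k by linarith))) hk2
  have eψ : EP N T S k₀ (qs s (c k₀) k₀) k₀ = 4 * s ^ 4 * EP N T S k₀ (gs s (c k₀) k₀) k₀ := by
    unfold qs
    rw [EP_mul]
  have eφ : EP N R S k₀ (fun a n m => μ ^ 2 * ph l K (b k₀) k₀ a n m) k₀
      = μ ^ 2 * EP N R S k₀ (ph l K (b k₀) k₀) k₀ := EP_mul ..
  rw [eψ, eφ] at hTot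
  linarith

end

end Vale.Agent.P141.H874
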