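import Vale.Agent.P141.H999.LightM
import Vale.Agent.P141.H103.PotW
import Vale.Agent.P141.H103.MidK
import Vale.Agent.P141.H633.DefS

/-!
# The light pair: block matrices of kernels

`x` hub variable (scale `k`, cell `m`), labels `κ`, outer cells `n` of scale `a`.
`BM k m F` : the matrix, indexed by `Ix k × κ`, of the kernel `F x x' : Matrix κ κ ℝ` on the cell.
`LM l K a b n x x' = l K(x;a,n)⁻¹ (avg_y b(x,y) ⊗ b(x',y)) K(x';a,n)⁻¹` : the light kernel;
`ph` : its potential.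
-/

namespace Vale.Agent.P141.H874

open scoped Kronecker
open Finset Matrix Vale.Agent.P141.PL Vale.Agent.P141.PL.H103 Vale.Agent.P141.H103
open Vale.Agent.P075 (Ix val)
open Vale.Agent.P141.H999 (Sq fm hs fInc light_cs light_l2 light_defect)

noncomputable section

variable {κ : Type*} [Fintype κ]

/-! ### Block matrices of kernels -/

/-- the matrix of a kernel on the cell `m` of scale `k` -/
def BM (k : ℕ) (m : ℤ) (F : ℤ → ℤ → Matrix κ κ ℝ) : Matrix (Ix k × κ) (Ix k × κ) ℝ := fun p q =>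
  ((2 : ℝ) ^ k)⁻¹ * F (2 ^ k * m + val k p.1) (2 ^ k * m + val k q.1) p.2 q.2

omit [Fintype κ] in
theorem BM_transpose (k : ℕ) (m : ℤ) (F : ℤ → ℤ → Matrix κ κ ℝ) :
    (BM k m F)ᵀ = BM k m (fun x x' => (F x' x)ᵀ) := by
  ext p q
  simp only [BM, transpose_apply]

omit [Fintype κ] in
theorem BM_symm {k : ℕ} {m : ℤ} {F : ℤ → ℤ → Matrix κ κ ℝ} (h : ∀ x x', (F x' x)ᵀ = F x x') :
    (BM k m F)ᵀ = BM k m F := by
  rw [BM_transpose]
  simp only [h]

omit [Fintype κ] in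
theorem BM_sub (k : ℕ) (m : ℤ) (F F' : ℤ → ℤ → Matrix κ κ ℝ) :
    BM k m F - BM k m F' = BM k m (fun x x' => F x x' - F' x x') := by
  ext p q
  simp only [BM, Matrix.sub_apply]
  ring

omit [Fintype κ] in
theorem BM_add (k : ℕ) (m : ℤ) (F F' : ℤ → ℤ → Matrix κ κ ℝ) :
    BM k m F + BM k m F' = BM k m (fun x x' => F x x' + F' x x') := by
  ext p q
  simp only [BM, Matrix.add_apply]
  ring

omit [Fintype κ] in
theorem BM_smul (k : ℕ) (m : ℤ) (μ : ℝ) (F : ℤ → ℤ → Matrix κ κ ℝ) :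
    μ • BM k m F = BM k m (fun x x' => μ • F x x') := by
  ext p q
  simp only [BM, Matrix.smul_apply, smul_eq_mul]
  ring

/-- trace of a product -/
theorem BM_trace (k : ℕ) (m : ℤ) (F F' : ℤ → ℤ → Matrix κ κ ℝ) :
    (BM k m F * BM k m F').trace
      = ((4 : ℝ) ^ k)⁻¹ * ∑ x ∈ iv k m, ∑ x' ∈ iv k m, (F x x' * F' x' x).trace := by
  rw [H588.sum_iv]
  simp only [H588.sum_iv k m]
  have h4 : ((4 : ℝ) ^ k)⁻¹ = ((2 : ℝ) ^ k)⁻¹ * ((2 : ℝ) ^ k)⁻¹ := by
    rw [← mul_inv, ← mul_pow]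
    norm_num
  simp only [Matrix.trace, Matrix.diag, Matrix.mul_apply, BM, Fintype.sum_prod_type]
  rw [h4, Finset.mul_sum]
  refine Finset.sum_congr rfl fun j _ => ?_
  rw [Finset.mul_sum, Finset.sum_comm]
  refine Finset.sum_congr rfl fun j' _ => ?_
  rw [Finset.mul_sum]
  refine Finset.sum_congr rfl fun α _ => ?_
  rw [Finset.mul_sum]
  refine Finset.sum_congr rfl fun β _ => ?_
  ring

/-! ### The light kernel and its potential -/

omit [Fintype κ] in
/-- `XR` of a function with itself, transposed -/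
theorem XR_swap (a : ℕ) (b : ℤ → ℤ → κ → ℝ) (x x' n : ℤ) :
    (XR a b b x' x n)ᵀ = XR a b b x x' n := by
  unfold XR
  rw [transpose_smul, transpose_sum]
  congr 1
  exact Finset.sum_congr rfl fun y _ => transpose_vecMulVec _ _

variable [DecidableEq κ]

/-- the light kernel: outer scale `a`, outer cell `n` -/
def LM (l : ℝ) (K : ℤ → ℕ → ℤ → Matrix κ κ ℝ) (b : ℤ → ℤ → κ → ℝ) (a : ℕ) (n x x' : ℤ) :
    Matrix κ κ ℝ :=
  l • ((K x a n)⁻¹ * XR a b b x x' n * (K x' a n)⁻¹)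

/-- the weighted form of a kernel `F` -/
def wf (l : ℝ) (K : ℤ → ℕ → ℤ → Matrix κ κ ℝ) (k a : ℕ) (n m : ℤ)
    (F : ℤ → ℤ → Matrix κ κ ℝ) : ℝ :=
  ((4 : ℝ) ^ k)⁻¹ * ∑ x ∈ iv k m, ∑ x' ∈ iv k m, l * fm (K x a n) (K x' a n) (F x x') (F x x')

/-- the potential of the light slot -/
def ph (l : ℝ) (K : ℤ → ℕ → ℤ → Matrix κ κ ℝ) (b : ℤ → ℤ → κ → ℝ) (k a : ℕ) (n m : ℤ) : ℝ :=
  wf l K k a n m fun x x' => XR a b b x x' n

/-- the moving family of the light slot -/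
def LP (l : ℝ) (K : ℤ → ℕ → ℤ → Matrix κ κ ℝ) (b : ℤ → ℤ → κ → ℝ) (k a : ℕ) (n m : ℤ) :
    Matrix (Ix k × κ) (Ix k × κ) ℝ := BM k m (LM l K b a n)

/-- the static family of the other slot -/
def CP (c : ℤ → ℤ → κ → ℝ) (k a : ℕ) (n m : ℤ) : Matrix (Ix k × κ) (Ix k × κ) ℝ :=
  BM k m fun x x' => XR a c c x x' n

variable {l : ℝ} {N : ℕ} {G K : ℤ → ℕ → ℤ → Matrix κ κ ℝ}

omit [Fintype κ] [DecidableEq κ] in
theorem herm_tr {A : Matrix κ κ ℝ} (h : A.IsHermitian) : Aᵀ = A := by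
  rw [← conjTranspose_eq_transpose_of_trivial]
  exact h

theorem sq_of_tr (h : ∀ x, H420.Tr l N (G x) (K x)) {a : ℕ} (ha : a < N) (n x : ℤ) :
    Sq (K x (a + 1) n) (K x a (2 * n)) (K x a (2 * n + 1)) where
  h := (h x).pdK _ _
  hp := (h x).pdK _ _
  hm := (h x).pdK _ _
  sq := by
    rw [(h x).sq, (h x).sq, (h x).sq, (h x).mean a ha]
    module

theorem ge_of_tr (h : ∀ x, H420.Tr l N (G x) (K x)) (a : ℕ) (n x : ℤ) :
    (K x a n - √l • (1 : Matrix κ κ ℝ)).PosSemidef :=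
  H420.sqrt_le_K (h x).l_pos ((h x).psG a n) ((h x).pdK a n) ((h x).sq a n)

theorem LM_symm (h : ∀ x, H420.Tr l N (G x) (K x)) (b : ℤ → ℤ → κ → ℝ) (a : ℕ) (n x x' : ℤ) :
    (LM l K b a n x' x)ᵀ = LM l K b a n x x' := by
  unfold LM
  rw [transpose_smul, transpose_mul, transpose_mul, XR_swap,
    herm_tr ((h x').pdK a n).isHermitian.inv, herm_tr ((h x).pdK a n).isHermitian.inv,
    Matrix.mul_assoc]

theorem LP_symm (h : ∀ x, H420.Tr l N (G x) (K x)) (b : ℤ → ℤ → κ → ℝ) (k a : ℕ) (n m : ℤ) :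
    (LP l K b k a n m)ᵀ = LP l K b k a n m :=
  BM_symm fun x x' => LM_symm h b a n x x'

omit [DecidableEq κ] in
theorem CP_symm (c : ℤ → ℤ → κ → ℝ) (k a : ℕ) (n m : ℤ) : (CP c k a n m)ᵀ = CP c k a n m :=
  BM_symm fun x x' => XR_swap a c x x' n

omit [Fintype κ] [DecidableEq κ] in
theorem CP_out (N k : ℕ) (c : ℤ → ℤ → κ → ℝ) : OutM N k (CP c k) := by
  intro a _ _ n m
  unfold CP
  rw [BM_add, BM_smul]
  congr 1
  funext x x'
  exact XR_step a c c x x' n

omit [DecidableEq κ] in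
/-- trace of the square of a symmetric kernel -/
theorem BM_sq {k : ℕ} {m : ℤ} {F : ℤ → ℤ → Matrix κ κ ℝ} (h : ∀ x x', (F x' x)ᵀ = F x x') :
    (BM k m F * BM k m F).trace = ((4 : ℝ) ^ k)⁻¹ * ∑ x ∈ iv k m, ∑ x' ∈ iv k m, hs (F x x') := by
  rw [BM_trace]
  congr 1
  refine Finset.sum_congr rfl fun x _ => Finset.sum_congr rfl fun x' _ => ?_
  rw [← h x' x, trace_mul_comm]
  rfl

/-- **The increments of the light slot are paid by its potential.** -/
theorem LP_inc (h : ∀ x, H420.Tr l N (G x) (K x)) (b : ℤ → ℤ → κ → ℝ) (k : ℕ) {a : ℕ}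
    (ha : a < N) (n m : ℤ) :
    ((LP l K b k a (2 * n) m - LP l K b k (a + 1) n m)
        * (LP l K b k a (2 * n) m - LP l K b k (a + 1) n m)).trace
      + ((LP l K b k a (2 * n + 1) m - LP l K b k (a + 1) n m)
        * (LP l K b k a (2 * n + 1) m - LP l K b k (a + 1) n m)).trace
      ≤ ph l K b k a (2 * n) m + ph l K b k a (2 * n + 1) m - 2 * ph l K b k (a + 1) n m := by
  have hl : 0 < l := (h 0).l_pos
  have hr : 0 < √l := Real.sqrt_pos.2 hl
  have e1 : ∀ n', (LP l K b k a n' m - LP l K b k (a + 1) n m)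
        * (LP l K b k a n' m - LP l K b k (a + 1) n m)
      = BM k m (fun x x' => LM l K b a n' x x' - LM l K b (a + 1) n x x')
        * BM k m (fun x x' => LM l K b a n' x x' - LM l K b (a + 1) n x x') := by
    intro n'
    unfold LP
    rw [BM_sub]
  have s : ∀ n' x x', (LM l K b a n' x' x - LM l K b (a + 1) n x' x)ᵀ
      = LM l K b a n' x x' - LM l K b (a + 1) n x x' := by
    intro n' x x'
    rw [transpose_sub, LM_symm h, LM_symm h]
  rw [e1, e1, BM_sq (s _), BM_sq (s _)]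
  have key : ∀ x x', hs (LM l K b a (2 * n) x x' - LM l K b (a + 1) n x x')
      + hs (LM l K b a (2 * n + 1) x x' - LM l K b (a + 1) n x x')
      ≤ l * fm (K x a (2 * n)) (K x' a (2 * n)) (XR a b b x x' (2 * n)) (XR a b b x x' (2 * n))
        + l * fm (K x a (2 * n + 1)) (K x' a (2 * n + 1)) (XR a b b x x' (2 * n + 1))
          (XR a b b x x' (2 * n + 1))
        - 2 * (l * fm (K x (a + 1) n) (K x' (a + 1) n) (XR (a + 1) b b x x' n)
          (XR (a + 1) b b x x' n)) := by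
    intro x x'
    have h1 := light_l2 (sq_of_tr h ha n x) (sq_of_tr h ha n x') hr (Real.mul_self_sqrt hl.le).symm
      (ge_of_tr h a (2 * n) x) (ge_of_tr h a (2 * n + 1) x) (ge_of_tr h a (2 * n) x')
      (ge_of_tr h a (2 * n + 1) x') (Xp := XR a b b x x' (2 * n))
      (Xm := XR a b b x x' (2 * n + 1))
      (M := LM l K b (a + 1) n x x') (Mp := LM l K b a (2 * n) x x')
      (Mm := LM l K b a (2 * n + 1) x x') (by rw [← XR_step]; rfl) rfl rfl
    unfold fInc at h1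
    rw [← XR_step] at h1
    linarith
  have S := Finset.sum_le_sum fun x (_ : x ∈ iv k m) =>
    Finset.sum_le_sum fun x' (_ : x' ∈ iv k m) => key x x'
  have S2 := mul_le_mul_of_nonneg_left S (show (0 : ℝ) ≤ ((4 : ℝ) ^ k)⁻¹ by positivity)
  unfold ph wf
  simp only [Finset.sum_add_distrib, Finset.sum_sub_distrib, ← Finset.mul_sum] at S2 ⊢
  linarith

/-- `tr P² ≤ φ` -/
theorem LP_pot (h : ∀ x, H420.Tr l N (G x) (K x)) (b : ℤ → ℤ → κ → ℝ) (k a : ℕ) (n m : ℤ) :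
    (LP l K b k a n m * LP l K b k a n m).trace ≤ ph l K b k a n m := by
  have hl : 0 < l := (h 0).l_pos
  unfold LP ph wf
  rw [BM_sq fun x x' => LM_symm h b a n x x']
  refine mul_le_mul_of_nonneg_left (Finset.sum_le_sum fun x _ => Finset.sum_le_sum fun x' _ => ?_)
    (by positivity)
  -- one pair
  set Z := K x' a n ⊗ₖ K x a n with hZ
  have pZ : Z.PosDef := ((h x').pdK a n).kronecker ((h x).pdK a n)
  have gZ : (Z - l • (1 : Matrix (κ × κ) (κ × κ) ℝ)).PosSemidef := by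
    have := H999.kron_ge (Real.sqrt_nonneg l) ((h x).pdK a n).posSemidef (ge_of_tr h a n x)
      (ge_of_tr h a n x')
    rwa [Real.mul_self_sqrt hl.le] at this
  have e1 : Z⁻¹ *ᵥ vec (XR a b b x x' n)
      = vec ((K x a n)⁻¹ * XR a b b x x' n * (K x' a n)⁻¹) :=
    H999.inv_vec _ ((h x').pdK a n).isHermitian _
  have hu := (isUnit_iff_isUnit_det _).mp pZ.isUnit
  set y := vec (XR a b b x x' n) with hy
  set w := Z⁻¹ *ᵥ y with hw
  have h1 : Z *ᵥ w = y := by rw [hw, mulVec_mulVec, mul_nonsing_inv _ hu, one_mulVec]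
  have h2 : 0 ≤ w ⬝ᵥ ((Z - l • (1 : Matrix (κ × κ) (κ × κ) ℝ)) *ᵥ w) := by
    have := gZ.dotProduct_mulVec_nonneg w
    rwa [star_trivial] at this
  rw [sub_mulVec, h1, smul_mulVec, one_mulVec, dotProduct_sub, dotProduct_smul, smul_eq_mul] at h2
  have h3 : fm (K x a n) (K x' a n) (XR a b b x x' n) (XR a b b x x' n) = w ⬝ᵥ y := by
    rw [← H999.fm_vec _ ((h x').pdK a n).isHermitian, ← hZ, ← hy, ← hw, dotProduct_comm]
  have h4 : hs (LM l K b a n x x') = l * (l * (w ⬝ᵥ w)) := by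
    rw [e1, vec_dotProduct_vec, LM, H999.hs, transpose_smul, Matrix.smul_mul, Matrix.mul_smul,
      trace_smul, trace_smul, smul_eq_mul, smul_eq_mul]
  rw [h3, h4]
  exact mul_le_mul_of_nonneg_left (by linarith) hl.le

theorem LP_potM (h : ∀ x, H420.Tr l N (G x) (K x)) (b : ℤ → ℤ → κ → ℝ) (k : ℕ) :
    PotM N k (LP l K b k) (ph l K b k) :=
  ⟨fun _ _ ha n m => LP_inc h b k ha n m, fun n m => LP_pot h b k N n m⟩

end

end Vale.Agent.P141.H874
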