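import Vale.Agent.P141.H874.LightQ

/-!
# The light pair: the light slot and the node inequality
-/

set_option linter.unusedSectionVars false

namespace Vale.Agent.P141.H874

open scoped Kronecker
open Finset Matrix Vale.Agent.P141.PL Vale.Agent.P141.PL.H103 Vale.Agent.P141.H103
open Vale.Agent.P075 (Ix val res phi ld GX delt hdiff bd rad)
open Vale.Agent.P141.PL.H588 (hd)
open Vale.Agent.P141.H999 (Sq fm hs fInc light_cs light_l2 light_defect)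

noncomputable section

variable {κ : Type*} [Fintype κ] [DecidableEq κ]
variable {l : ℝ} {N : ℕ} {G K : ℤ → ℕ → ℤ → Matrix κ κ ℝ}

theorem sum_iv_half (k : ℕ) (m : ℤ) (f : ℤ → ℝ) :
    ∑ x ∈ iv (k + 1) m, f x = ∑ x ∈ iv k (2 * m), f x + ∑ x ∈ iv k (2 * m + 1), f x := by
  have hU : iv (k + 1) m = iv k (2 * m) ∪ iv k (2 * m + 1) := by
    ext x
    simp only [mem_union, mem_iv, ix]
    rw [pow_succ, ← Int.ediv_ediv_of_nonneg (by positivity)]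
    omega
  have hd : Disjoint (iv k (2 * m)) (iv k (2 * m + 1)) := by
    rw [disjoint_left]
    intro x hx hx'
    rw [mem_iv] at hx hx'
    omega
  rw [hU, sum_union hd]

theorem LP_eq (b : ℤ → ℤ → κ → ℝ) (k a : ℕ) (n m : ℤ) :
    LP l K b k a n m = l • (DB k m (fun x => (K x a n)⁻¹) * CP b k a n m
      * DB k m (fun x => (K x a n)⁻¹)) := by
  unfold LP CP
  rw [DB_conj, BM_smul]
  rfl

theorem LP_psd (h : ∀ x, H420.Tr l N (G x) (K x)) (b : ℤ → ℤ → κ → ℝ) (k a : ℕ) (n m : ℤ) :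
    (LP l K b k a n m).PosSemidef := by
  rw [LP_eq]
  have hl : 0 < l := (h 0).l_pos
  have e : (DB k m fun x => (K x a n)⁻¹)ᵀ = DB k m fun x => (K x a n)⁻¹ :=
    DB_tr fun x => herm_tr ((h x).pdK a n).isHermitian.inv
  exact (P075.psd_conj_symm (CP_psd b k a n m) e).smul hl.le

/-! ### The hub step of the potential of the light slot -/

/-- the potential of the light slot by squares -/
theorem ph_sq (h : ∀ x, H420.Tr l N (G x) (K x)) (b : ℤ → ℤ → κ → ℝ) (k a : ℕ) (n m : ℤ) :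
    ph l K b k a n m = ((4 : ℝ) ^ k)⁻¹ * (l * (((2 : ℝ) ^ a)⁻¹ * ((2 : ℝ) ^ a)⁻¹)) *
      ∑ y ∈ iv a n, ∑ y' ∈ iv a n, (∑ x ∈ iv k m, b x y ⬝ᵥ ((K x a n)⁻¹ *ᵥ b x y')) ^ 2 := by
  have key : ∀ x x', fm (K x a n) (K x' a n) (XR a b b x x' n) (XR a b b x x' n)
      = (((2 : ℝ) ^ a)⁻¹ * ((2 : ℝ) ^ a)⁻¹) * ∑ y ∈ iv a n, ∑ y' ∈ iv a n,
        (b x y ⬝ᵥ ((K x a n)⁻¹ *ᵥ b x y')) * (b x' y ⬝ᵥ ((K x' a n)⁻¹ *ᵥ b x' y')) := by
    intro x x'
    have s2 : ((K x' a n)⁻¹)ᵀ = (K x' a n)⁻¹ := herm_tr ((h x').pdK a n).isHermitian.inv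
    unfold fm XR
    rw [transpose_smul, transpose_sum, Matrix.mul_smul, Matrix.smul_mul, Matrix.smul_mul,
      Matrix.mul_smul, trace_smul, trace_smul, smul_eq_mul, smul_eq_mul, ← mul_assoc]
    congr 1
    rw [Finset.sum_mul, trace_sum]
    refine Finset.sum_congr rfl fun y _ => ?_
    rw [Finset.mul_sum, Finset.sum_mul, Finset.mul_sum, trace_sum]
    refine Finset.sum_congr rfl fun y' _ => ?_
    rw [transpose_vecMulVec, mul_vecMulVec,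
      vecMulVec_mul ((K x a n)⁻¹ *ᵥ b x y') (b x' y') (K x' a n)⁻¹, vecMulVec_mul_vecMulVec,
      trace_vecMulVec, dotProduct_smul, smul_eq_mul, ← mulVec_transpose, s2]
  unfold ph wf
  simp only [key]
  have e : ∀ g : ℤ → ℤ → ℤ → ℝ, ∑ x ∈ iv k m, ∑ x' ∈ iv k m,
      l * (((2 : ℝ) ^ a)⁻¹ * ((2 : ℝ) ^ a)⁻¹ * ∑ y ∈ iv a n, ∑ y' ∈ iv a n, g x y y' * g x' y y')
      = (l * (((2 : ℝ) ^ a)⁻¹ * ((2 : ℝ) ^ a)⁻¹)) *
        ∑ y ∈ iv a n, ∑ y' ∈ iv a n, (∑ x ∈ iv k m, g x y y') ^ 2 := by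
    intro g
    simp only [← mul_assoc, ← Finset.mul_sum]
    congr 1
    have q : ∀ y y', (∑ x ∈ iv k m, g x y y') ^ 2
        = ∑ x ∈ iv k m, ∑ x' ∈ iv k m, g x y y' * g x' y y' := fun y y' => by
      rw [sq, Finset.sum_mul_sum]
    simp only [q]
    calc ∑ x ∈ iv k m, ∑ x' ∈ iv k m, ∑ y ∈ iv a n, ∑ y' ∈ iv a n, g x y y' * g x' y y'
        = ∑ x ∈ iv k m, ∑ y ∈ iv a n, ∑ y' ∈ iv a n, ∑ x' ∈ iv k m, g x y y' * g x' y y' := by
          refine Finset.sum_congr rfl fun x _ => ?_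
          rw [Finset.sum_comm]
          refine Finset.sum_congr rfl fun y _ => ?_
          rw [Finset.sum_comm]
      _ = ∑ y ∈ iv a n, ∑ x ∈ iv k m, ∑ y' ∈ iv a n, ∑ x' ∈ iv k m, g x y y' * g x' y y' :=
          Finset.sum_comm
      _ = _ := by
          refine Finset.sum_congr rfl fun y _ => ?_
          rw [Finset.sum_comm]
  rw [e fun x y y' => b x y ⬝ᵥ ((K x a n)⁻¹ *ᵥ b x y')]
  ring

/-- **The hub step of the potential of the light slot.** -/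
theorem ph_mid (h : ∀ x, H420.Tr l N (G x) (K x)) (b : ℤ → ℤ → κ → ℝ) (k a : ℕ) (n m : ℤ) :
    2 * ph l K b (k + 1) a n m ≤ ph l K b k a n (2 * m) + ph l K b k a n (2 * m + 1) := by
  have hl : 0 < l := (h 0).l_pos
  rw [ph_sq h, ph_sq h, ph_sq h, ← mul_add, ← Finset.sum_add_distrib]
  simp only [← Finset.sum_add_distrib]
  rw [← mul_assoc]
  have e : 2 * (((4 : ℝ) ^ (k + 1))⁻¹ * (l * (((2 : ℝ) ^ a)⁻¹ * ((2 : ℝ) ^ a)⁻¹)))
      = ((4 : ℝ) ^ k)⁻¹ * (l * (((2 : ℝ) ^ a)⁻¹ * ((2 : ℝ) ^ a)⁻¹)) * (1 / 2) := by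
    rw [pow_succ, mul_inv]
    ring
  rw [e, mul_assoc _ (1 / 2 : ℝ)]
  refine mul_le_mul_of_nonneg_left ?_ (by positivity)
  rw [Finset.mul_sum]
  refine Finset.sum_le_sum fun y _ => ?_
  rw [Finset.mul_sum]
  refine Finset.sum_le_sum fun y' _ => ?_
  rw [sum_iv_half]
  nlinarith [sq_nonneg (∑ x ∈ iv k (2 * m), b x y ⬝ᵥ ((K x a n)⁻¹ *ᵥ b x y')
    - ∑ x ∈ iv k (2 * m + 1), b x y ⬝ᵥ ((K x a n)⁻¹ *ᵥ b x y'))]

/-! ### The drift of the light slot -/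

theorem am_gm {d A B μ : ℝ} (h : d ^ 2 ≤ A * B) (hA : 0 ≤ A) (hB : 0 ≤ B) :
    μ * d ≤ 1 / 2 * (μ ^ 2 * A + B) := by
  have h1 : (μ * d) ^ 2 ≤ (1 / 2 * (μ ^ 2 * A + B)) ^ 2 := by
    nlinarith [sq_nonneg (μ ^ 2 * A - B), mul_le_mul_of_nonneg_left h (sq_nonneg μ)]
  exact le_of_abs_le (abs_le_of_sq_le_sq h1 (by positivity))

/-- trace against a symmetric matrix -/
theorem tr_LP (h : ∀ x, H420.Tr l N (G x) (K x)) (b : ℤ → ℤ → κ → ℝ) (k a : ℕ) (n m : ℤ)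
    {Q : Matrix (Ix k × κ) (Ix k × κ) ℝ} (hQ : Qᵀ = Q) :
    (LP l K b k a n m * Q).trace = ∑ i, ∑ j, ((2 : ℝ) ^ k)⁻¹ *
      (l * fm (K (2 ^ k * m + val k i) a n) (K (2 ^ k * m + val k j) a n)
        (XR a b b (2 ^ k * m + val k i) (2 ^ k * m + val k j) n) (bk Q i j)) := by
  rw [trace_mul_bk]
  refine Finset.sum_congr rfl fun i _ => Finset.sum_congr rfl fun j _ => ?_
  have s1 := herm_tr ((h (2 ^ k * m + (val k i : ℤ))).pdK a n).isHermitian.inv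
  have s2 := herm_tr ((h (2 ^ k * m + (val k j : ℤ))).pdK a n).isHermitian.inv
  rw [LP, bk_BM, ← bk_tr hQ, Matrix.smul_mul, trace_smul, smul_eq_mul]
  congr 1
  rw [LM, Matrix.smul_mul, trace_smul, smul_eq_mul]
  congr 1
  rw [fm, ← trace_transpose]
  simp only [transpose_mul, transpose_transpose, s1, s2]
  rw [trace_mul_comm]
  simp only [Matrix.mul_assoc]
  rw [trace_mul_comm]
  simp only [Matrix.mul_assoc]

/-- the node data of the slot `c` -/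
def dc (l : ℝ) (K : ℤ → ℕ → ℤ → Matrix κ κ ℝ) (c : ℤ → ℤ → κ → ℝ) (k : ℕ) (n n' m : ℤ) : ℝ :=
  ((2 : ℝ) ^ k)⁻¹ * ∑ x ∈ iv k m, ((2 : ℝ) ^ (k + 1))⁻¹ * ∑ z ∈ iv (k + 1) n',
    c x z ⬝ᵥ (H633.del l (K x (k + 1) n) (K x k (2 * n)) (K x k (2 * n + 1)) *ᵥ c x z)

theorem del_eq (l : ℝ) (K Kp Km : Matrix κ κ ℝ) : H633.del l K Kp Km = H999.del (√l) K Kp Km := rfl

theorem drift (h : ∀ x, H420.Tr l N (G x) (K x)) (b : ℤ → ℤ → κ → ℝ) (k : ℕ) {a : ℕ}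
    (ha : a < N) (n m : ℤ) {Q : Matrix (Ix k × κ) (Ix k × κ) ℝ} (hQ : Q.PosSemidef) {S : ℝ}
    (hS : (S • (1 : Matrix (Ix k × κ) (Ix k × κ) ℝ) - Q).PosSemidef) (μ : ℝ) :
    μ * ((LP l K b k (a + 1) n m * Q).trace - 1 / 2 * ((LP l K b k a (2 * n) m * Q).trace
      + (LP l K b k a (2 * n + 1) m * Q).trace))
      ≤ 1 / 4 * μ ^ 2 * (ph l K b k a (2 * n) m + ph l K b k a (2 * n + 1) m
        - 2 * ph l K b k (a + 1) n m)
      + 3 / 2 * S * (DB k m (fun x => H999.del (√l) (K x (a + 1) n) (K x a (2 * n))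
        (K x a (2 * n + 1))) * Q).trace := by
  have hl : 0 < l := (h 0).l_pos
  have hr : 0 < √l := Real.sqrt_pos.2 hl
  have hQt := P075.psd_isSymm hQ
  set X : Ix k → ℤ := fun i => 2 ^ k * m + val k i with hX
  set Kb : Ix k → Matrix κ κ ℝ := fun i => K (X i) (a + 1) n with hKb
  set Kp : Ix k → Matrix κ κ ℝ := fun i => K (X i) a (2 * n) with hKp
  set Km : Ix k → Matrix κ κ ℝ := fun i => K (X i) a (2 * n + 1) with hKm
  set Xp : Ix k → Ix k → Matrix κ κ ℝ := fun i j => XR a b b (X i) (X j) (2 * n) with hXp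
  set Xm : Ix k → Ix k → Matrix κ κ ℝ := fun i j => XR a b b (X i) (X j) (2 * n + 1) with hXm
  have H : ∀ i, Sq (Kb i) (Kp i) (Km i) := fun i => sq_of_tr h ha n (X i)
  have gb : ∀ i, (Kb i - √l • (1 : Matrix κ κ ℝ)).PosSemidef := fun i => ge_of_tr h (a + 1) n (X i)
  have gp : ∀ i, (Kp i - √l • (1 : Matrix κ κ ℝ)).PosSemidef := fun i => ge_of_tr h a (2 * n) (X i)
  have gm : ∀ i, (Km i - √l • (1 : Matrix κ κ ℝ)).PosSemidef :=
    fun i => ge_of_tr h a (2 * n + 1) (X i)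
  have hst : ∀ i j, XR (a + 1) b b (X i) (X j) n = (1 / 2 : ℝ) • (Xp i j + Xm i j) :=
    fun i j => XR_step a b b (X i) (X j) n
  -- one pair
  have key : ∀ i j, μ * (((2 : ℝ) ^ k)⁻¹ * (l * (fm (Kb i) (Kb j)
        ((1 / 2 : ℝ) • (Xp i j + Xm i j)) (bk Q i j)
        - 1 / 2 * (fm (Kp i) (Kp j) (Xp i j) (bk Q i j) + fm (Km i) (Km j) (Xm i j) (bk Q i j)))))
      ≤ 1 / 2 * μ ^ 2 * (((4 : ℝ) ^ k)⁻¹ * (l * fInc (Kb i) (Kp i) (Km i) (Kb j) (Kp j) (Km j)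
          (Xp i j) (Xm i j) (Xp i j) (Xm i j)))
        + 3 / 4 * (((bk Q i j)ᵀ * (H999.del (√l) (Kb i) (Kp i) (Km i) * bk Q i j)).trace
          + ((bk Q j i)ᵀ * (H999.del (√l) (Kb j) (Kp j) (Km j) * bk Q j i)).trace) := by
    intro i j
    have h1 := light_defect (H i) (H j) (Xp i j) (Xm i j) (bk Q i j)
    have h2 := H999.fInc_nonneg (H i) (H j) (Xp i j) (Xm i j)
    have h3 := H999.fInc_nonneg (H i) (H j) (bk Q i j) (bk Q i j)
    have h4 := H999.inc0_le (H i) (H j) hr (Real.mul_self_sqrt hl.le).symm (gb i) (gp i) (gm i)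
      (gb j) (gp j) (gm j) (bk Q i j)
    rw [bk_tr hQt] at h4
    have h5 := am_gm (μ := -(μ * ((2 : ℝ) ^ k)⁻¹)) h1 h2 h3
    have h6 := mul_le_mul_of_nonneg_left h5 hl.le
    have e4 : ((4 : ℝ) ^ k)⁻¹ = ((2 : ℝ) ^ k)⁻¹ ^ 2 := by
      rw [inv_pow, ← pow_mul, mul_comm k 2, pow_mul]
      norm_num
    rw [e4, bk_tr hQt i j]
    linarith
  have S1 := Finset.sum_le_sum fun i (_ : i ∈ (Finset.univ : Finset (Ix k))) =>
    Finset.sum_le_sum fun j (_ : j ∈ (Finset.univ : Finset (Ix k))) => key i j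
  have eL : ∑ i, ∑ j, μ * (((2 : ℝ) ^ k)⁻¹ * (l * (fm (Kb i) (Kb j)
        ((1 / 2 : ℝ) • (Xp i j + Xm i j)) (bk Q i j)
        - 1 / 2 * (fm (Kp i) (Kp j) (Xp i j) (bk Q i j) + fm (Km i) (Km j) (Xm i j) (bk Q i j)))))
      = μ * ((LP l K b k (a + 1) n m * Q).trace - 1 / 2 * ((LP l K b k a (2 * n) m * Q).trace
      + (LP l K b k a (2 * n + 1) m * Q).trace)) := by
    rw [tr_LP h b k (a + 1) n m hQt, tr_LP h b k a (2 * n) m hQt, tr_LP h b k a (2 * n + 1) m hQt,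
      ← Finset.sum_add_distrib, Finset.mul_sum, ← Finset.sum_sub_distrib, Finset.mul_sum]
    refine Finset.sum_congr rfl fun i _ => ?_
    rw [← Finset.sum_add_distrib, Finset.mul_sum, ← Finset.sum_sub_distrib, Finset.mul_sum]
    refine Finset.sum_congr rfl fun j _ => ?_
    rw [← hst]
    ring
  have ph_e : ∀ a n, ph l K b k a n m = ∑ i, ∑ j, ((4 : ℝ) ^ k)⁻¹ * (l * fm (K (X i) a n)
      (K (X j) a n) (XR a b b (X i) (X j) n) (XR a b b (X i) (X j) n)) := by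
    intro a n
    unfold ph wf
    rw [H588.sum_iv, Finset.mul_sum]
    refine Finset.sum_congr rfl fun i _ => ?_
    rw [H588.sum_iv, Finset.mul_sum]
  have eR : ∑ i, ∑ j, (1 / 2 * μ ^ 2 * (((4 : ℝ) ^ k)⁻¹ * (l * fInc (Kb i) (Kp i) (Km i) (Kb j)
          (Kp j) (Km j) (Xp i j) (Xm i j) (Xp i j) (Xm i j)))
        + 3 / 4 * (((bk Q i j)ᵀ * (H999.del (√l) (Kb i) (Kp i) (Km i) * bk Q i j)).trace
          + ((bk Q j i)ᵀ * (H999.del (√l) (Kb j) (Kp j) (Km j) * bk Q j i)).trace))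
      = 1 / 4 * μ ^ 2 * (ph l K b k a (2 * n) m + ph l K b k a (2 * n + 1) m
        - 2 * ph l K b k (a + 1) n m)
      + 3 / 2 * (Q * DB k m (fun x => H999.del (√l) (K x (a + 1) n) (K x a (2 * n))
        (K x a (2 * n + 1))) * Q).trace := by
    rw [trace_QMQ m hQt, ph_e, ph_e, ph_e]
    simp only [Finset.sum_add_distrib, ← Finset.mul_sum]
    have c1 : ∑ i, ∑ j, ((bk Q j i)ᵀ * (H999.del (√l) (Kb j) (Kp j) (Km j) * bk Q j i)).trace
        = ∑ i, ∑ j, ((bk Q i j)ᵀ * (H999.del (√l) (Kb i) (Kp i) (Km i) * bk Q i j)).trace :=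
      Finset.sum_comm
    rw [c1]
    have c2 : ∑ i, ∑ j, fInc (Kb i) (Kp i) (Km i) (Kb j) (Kp j) (Km j)
          (Xp i j) (Xm i j) (Xp i j) (Xm i j)
        = 1 / 2 * (∑ i, ∑ j, fm (Kp i) (Kp j) (Xp i j) (Xp i j)
          + ∑ i, ∑ j, fm (Km i) (Km j) (Xm i j) (Xm i j))
          - ∑ i, ∑ j, fm (Kb i) (Kb j) (XR (a + 1) b b (X i) (X j) n)
            (XR (a + 1) b b (X i) (X j) n) := by
      unfold fInc
      simp only [Finset.sum_sub_distrib, ← Finset.mul_sum, Finset.sum_add_distrib, ← hst]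
    rw [c2]
    ring
  rw [eL, eR] at S1
  have h7 := H633.tr_conj_le hQ hS (DB_psd (k := k) (m := m) fun x =>
    H999.del_psd (sq_of_tr h ha n x) hr.le)
  linarith

end

end Vale.Agent.P141.H874
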