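import Vale.Agent.P141.H874.LightB
import Vale.Agent.P141.H511.SeamZ
import Vale.Agent.P141.H46.LightF

/-!
# The light pair in the letters of the seam

`PH_zl` : the input `hqL` of `H609.tzX_lab` with the node operator `SV L e (VL l K)` and the
labelled functions `BL`, `CL` of `H511.SeamZ`; `PH_fin` : the same bounded by the masses of the
killed squares.
-/

set_option linter.unusedSectionVars false

namespace Vale.Agent.P141.H874

open Finset Matrix Vale.Agent.P141.PL Vale.Agent.P141.PL.H103 Vale.Agent.P141.H103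
open Vale.Agent.P075 Vale.Agent.P141.PL.H804 Vale.Agent.P141.H958
open Vale.Agent.P141.H536 (SE)
open Vale.Agent.P141.H338 (lf)
open Vale.Agent.P141.PL.H588 (hd)
open Vale.Agent.P141.H822 (SV VL)
open Vale.Agent.P141.H511 (BL CL SE_DB)
open Vale.Agent.P141.H46 (yS rS light_fin)

noncomputable section

open scoped Classical

variable {κ : Type*} [Fintype κ] [DecidableEq κ]
variable {l : ℝ} {N : ℕ} {G K : ℤ → ℕ → ℤ → Matrix κ κ ℝ}
variable {L : ℕ} {e : κ → ℤ} {R : Pt} {co : ℕ → ℤ} {s : ℕ → Finset Pt} {cC : ℝ}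
  {b C : ℕ → ℤ → ℤ → κ → ℝ}

/-- hub variable first -/
def tw (C : ℕ → ℤ → ℤ → κ → ℝ) : ℕ → ℤ → ℤ → κ → ℝ := fun k x z => C k z x

/-- **The input `hqL` in the letters of the seam.** -/
theorem PH_zl (h : ∀ x, H420.Tr l N (G x) (K x)) (he : Function.Injective e)
    (hm : ∀ i, e i ∈ lbs L) (hC : 0 < cC) (hs : ∀ k ∈ Icc 1 N, s k ⊆ bx3 N R k (co k)) (j : ℕ) :
    (cC / 2 ^ (j - 1)) ^ 2 * ∑ k ∈ Icc 1 N, ∑ m ∈ s k,
      (phi (gramC (lv cC j * (4 ^ (k + L))⁻¹)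
        (bl (k + L) (encR L (CL e (C k))) m.1 m.2.2)) *
      ((hd (k + L) * SV L e (VL l K) (k + L) m *
        (bl (k + L) (encR L (BL e (b k))) m.2.1 m.2.2)ᵀ * hd (k + L)) *
        (hd (k + L) * SV L e (VL l K) (k + L) m *
        (bl (k + L) (encR L (BL e (b k))) m.2.1 m.2.2)ᵀ * hd (k + L))ᵀ)).trace ≤
      4 ^ L * ∑ k ∈ range N, H103.GW N R.2.1 R.2.2 R.1 (k + 1) (co (k + 1))
        (gn l K (cC / 2 ^ (j - 1)) (b (k + 1)) (tw C (k + 1)) (k + 1)) := by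
  have h1 := PH_light (N := N) (L := L) (R := R) (s := s) (b := fun k a y x => b k x y a)
    (c := fun k a z x => C k z x a) h he hm hC hs j
  have h2 : ∀ (k : ℕ) (m : Pt), SE L e (SL l K) (k + L) m = SV L e (VL l K) (k + L) m :=
    fun k m => SE_DB (VL l K) k m
  simp only [h2] at h1
  rw [Nat.Ico_zero_eq_range] at h1
  exact h1

/-- **The input `hqL` at one section**, killed squares included. -/
theorem PH_fin (h : ∀ x, H420.Tr l N (G x) (K x)) (he : Function.Injective e)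
    (hm : ∀ i, e i ∈ lbs L) (hC : 0 < cC) (hc : H588.Pl co)
    (hs : ∀ k ∈ Icc 1 N, s k ⊆ bx3 N R k (co k)) {Kop : ℝ} (hK0 : 0 < Kop)
    (b0 : ∀ x y, b 0 x y = 0) (c0 : ∀ z x, C 0 z x = 0)
    (cap1 : ∀ k, k < N → ∀ n m,
      (Kop • (1 : Matrix (Ix (k + 1) × κ) (Ix (k + 1) × κ) ℝ)
        - LP l K (b (k + 1)) (k + 1) (k + 1) n m).PosSemidef)
    (cap : ∀ k, k < N → ∀ a, k ≤ a → a ≤ N → ∀ n m,
      (Kop • (1 : Matrix (Ix k × κ) (Ix k × κ) ℝ) - LP l K (b (k + 1)) k a n m).PosSemidef)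
    {q q' : ℕ → ℤ → ℤ → Prop}
    (agb : ∀ k, k < N → ∀ n ∈ iv (N - k) R.2.1, ∀ m ∈ iv (N - k) R.2.2, ¬ q k n m →
      ∀ x ∈ iv k m, ∀ y ∈ iv k n, b (k + 1) x y = b k x y)
    (agc : ∀ k, k < N → ∀ n ∈ iv (N - k) R.1, ∀ m ∈ iv (N - k) R.2.2, ¬ q' k n m →
      ∀ x ∈ iv k m, ∀ z ∈ iv k n, C (k + 1) z x = C k z x) (j : ℕ) {s' : ℝ}
    (hs' : s' = cC / 2 ^ (j - 1)) :
    (cC / 2 ^ (j - 1)) ^ 2 * ∑ k ∈ Icc 1 N, ∑ m ∈ s k,
      (phi (gramC (lv cC j * (4 ^ (k + L))⁻¹)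
        (bl (k + L) (encR L (CL e (C k))) m.1 m.2.2)) *
      ((hd (k + L) * SV L e (VL l K) (k + L) m *
        (bl (k + L) (encR L (BL e (b k))) m.2.1 m.2.2)ᵀ * hd (k + L)) *
        (hd (k + L) * SV L e (VL l K) (k + L) m *
        (bl (k + L) (encR L (BL e (b k))) m.2.1 m.2.2)ᵀ * hd (k + L))ᵀ)).trace ≤
      4 ^ L * (s' * √Kop * (148 * ∑ k ∈ range N, yS N R.2.2 R.2.1 k 1 (q k) (b (k + 1))
        + 288 * ∑ k ∈ range N, yS N R.2.2 R.1 k 1 (q' k) (tw C (k + 1))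
        + 3 * ∑ k ∈ range N, GW N R.2.1 R.2.2 R.1 (k + 1) (co (k + 1))
            (dcc l K (tw C (k + 1)) k))
        + 6 * Kop * ∑ k ∈ range N, yS N R.2.2 R.1 k 1 (q' k) (tw C (k + 1))
        + √Kop / s' * ∑ k ∈ range N, rS N R.2.1 R.2.2 R.1 k (co k) s' (q k)
            (tw C (k + 1))) := by
  subst hs'
  refine (PH_zl h he hm hC hs j).trans (mul_le_mul_of_nonneg_left ?_ (by positivity))
  exact light_fin h hc (by positivity) hK0 b0 (c := tw C) (fun x z => c0 z x) cap1 cap agb agc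

end

end Vale.Agent.P141.H874
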