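import Vale.Agent.P141.H536.LightQ
import Vale.Agent.P141.H609.HZL
import Vale.Agent.P141.H874.LightR

/-!
# The light pair: from the digits to the kernels

`sw b k x y a = b k a y x` : hub variable first, labels last.  `SL l K` : the node operator
`√l K⁻¹` at the nodes.

* `CP_mx`, `hL_sk`, `PB_LP`, `QC_QP` : the letters of `H536.LightQ` are the letters of the light
  pair; `pair_gn` : one node;
* `PH_node`, `PH_light` : the pair sum of `C` and of the light matrix on the fine grid (the input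
  `hqL` of `H609.tzX_lab`) is at most `4 ^ L` times the sum of `gn`;
* `SL_contr` : the node operator is a contraction.
-/

namespace Vale.Agent.P141.H874

open scoped Kronecker
open Finset Matrix Vale.Agent.P141.PL Vale.Agent.P141.PL.H103 Vale.Agent.P141.H103
open Vale.Agent.P075 Vale.Agent.P141.PL.H804 Vale.Agent.P141.H958
open Vale.Agent.P141.H536 (mx PB QC hL TE SE gram_enc phi_TE hd_TE TE_iso SE_add SE_contr hL_symm
  hd_diag psd_gram PB_psd QC_psd QP_nonneg)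
open Vale.Agent.P141.H609 (PH PH_lab YL YL_lab sum_shs)
open Vale.Agent.P141.H338 (lf)
open Vale.Agent.P141.PL.H588 (hd)

noncomputable section

set_option linter.unusedSectionVars false

variable {κ : Type*} [Fintype κ] [DecidableEq κ]

/-! ### The letters -/

/-- hub variable first, labels last -/
def sw (b : ℕ → κ → ℤ → ℤ → ℝ) : ℕ → ℤ → ℤ → κ → ℝ := fun k x y a => b k a y x

/-- the node operator `√l K⁻¹` -/
def SL (l : ℝ) (K : ℤ → ℕ → ℤ → Matrix κ κ ℝ) (k : ℕ) (m : ℤ × ℤ × ℤ) :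
    Matrix (Ix k × κ) (Ix k × κ) ℝ := DB k m.2.2 fun x => √l • (K x k m.2.1)⁻¹

theorem CP_mx (b : ℕ → κ → ℤ → ℤ → ℝ) (k : ℕ) (n m : ℤ) :
    CP (sw b k) k k n m = (4 ^ k : ℝ)⁻¹ • ((mx k (b k) n m)ᵀ * mx k (b k) n m) := by
  ext p q
  have h4 : ((4 : ℝ) ^ k)⁻¹ = ((2 : ℝ) ^ k)⁻¹ * ((2 : ℝ) ^ k)⁻¹ := by
    rw [← mul_inv, ← mul_pow]
    norm_num
  rw [Matrix.smul_apply, Matrix.mul_apply, smul_eq_mul, h4, mul_assoc]
  change (2 ^ k : ℝ)⁻¹ * ((2 ^ k : ℝ)⁻¹ • ∑ y ∈ iv k n, vecMulVec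
    (sw b k (2 ^ k * m + (val k p.1 : ℤ)) y) (sw b k (2 ^ k * m + (val k q.1 : ℤ)) y)) p.2 q.2 = _
  rw [Matrix.smul_apply, Matrix.sum_apply, smul_eq_mul, H588.sum_iv]
  rfl

theorem hL_sk {k : ℕ} (hk : 1 ≤ k) : hL κ k = sk k κ := by
  rw [sk, hd_diag hk, ← Matrix.diagonal_one, Matrix.diagonal_kronecker_diagonal, hL]
  congr 1
  funext p
  rw [mul_one]

variable {l : ℝ} {N : ℕ} {G K : ℤ → ℕ → ℤ → Matrix κ κ ℝ}

theorem SL_eq (k : ℕ) (m : ℤ × ℤ × ℤ) :
    SL l K k m = √l • DB k m.2.2 fun x => (K x k m.2.1)⁻¹ := by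
  ext p q
  rw [Matrix.smul_apply]
  unfold SL DB
  split_ifs
  · rfl
  · rw [smul_zero]

theorem SL_tr (h : ∀ x, H420.Tr l N (G x) (K x)) (k : ℕ) (m : ℤ × ℤ × ℤ) :
    (SL l K k m)ᵀ = SL l K k m := by
  have e : (DB k m.2.2 fun x => (K x k m.2.1)⁻¹)ᵀ = DB k m.2.2 fun x => (K x k m.2.1)⁻¹ :=
    DB_tr fun x => herm_tr ((h x).pdK k m.2.1).isHermitian.inv
  rw [SL_eq, transpose_smul, e]

theorem PB_LP (h : ∀ x, H420.Tr l N (G x) (K x)) (b : ℕ → κ → ℤ → ℤ → ℝ) (k : ℕ)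
    (m : ℤ × ℤ × ℤ) : PB b (SL l K) k m = LP l K (sw b k) k k m.2.1 m.2.2 := by
  have hl : 0 ≤ l := (h 0).l_pos.le
  rw [PB, SL_tr h, SL_eq, LP_eq, CP_mx]
  simp only [Matrix.smul_mul, Matrix.mul_smul, smul_smul]
  congr 1
  rw [Real.mul_self_sqrt hl, mul_comm]

theorem QC_QP {cC : ℝ} (hC : 0 < cC) (c : ℕ → κ → ℤ → ℤ → ℝ) (j k : ℕ) (n m : ℤ) :
    QC (lv cC j) c k n m = QP (cC / 2 ^ (j - 1)) (sw c k) k k n m := by
  have hi := inv_lv hC j
  have e : lv cC j = ((cC / 2 ^ (j - 1)) ^ 2)⁻¹ := by rw [← hi, inv_inv]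
  rw [QC, QP, XP, CP_mx, e, inv_inv]

/-- **One node**: the coarse pair is `gn`. -/
theorem pair_gn (h : ∀ x, H420.Tr l N (G x) (K x)) {cC : ℝ} (hC : 0 < cC)
    (b c : ℕ → κ → ℤ → ℤ → ℝ) (j : ℕ) {k : ℕ} (hk : 1 ≤ k) (n n' m : ℤ) :
    (QC (lv cC j) c k n' m * (hL κ k * PB b (SL l K) k (n', n, m) * hL κ k)).trace =
      gn l K (cC / 2 ^ (j - 1)) (sw b k) (sw c k) k n n' m := by
  rw [QC_QP hC, PB_LP h, hL_sk hk, gn, Matrix.trace_mul_comm]
  simp only [Matrix.mul_assoc]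
  rw [Matrix.trace_mul_comm]
  simp only [Matrix.mul_assoc]

/-! ### The pair sum on the fine grid -/

variable {L : ℕ} {e : κ → ℤ}

/-- **One node of the fine grid.** -/
theorem PH_node (he : Function.Injective e) (hm : ∀ i, e i ∈ lbs L) {cC : ℝ} (hC : 0 < cC)
    (b c : ℕ → κ → ℤ → ℤ → ℝ) (S : (k : ℕ) → Pt → Matrix (Ix k × κ) (Ix k × κ) ℝ) {k : ℕ}
    (hk : 1 ≤ k) (m : Pt) (j : ℕ) :
    (cC / 2 ^ (j - 1)) ^ 2 * (phi (gramC (lv cC j * (4 ^ (k + L))⁻¹)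
        (bl (k + L) (encR L (lf e (c k))) m.1 m.2.2)) *
      ((hd (k + L) * SE L e S (k + L) m * (bl (k + L) (encR L (lf e (b k))) m.2.1 m.2.2)ᵀ *
        hd (k + L)) * (hd (k + L) * SE L e S (k + L) m *
        (bl (k + L) (encR L (lf e (b k))) m.2.1 m.2.2)ᵀ * hd (k + L))ᵀ)).trace =
      4 ^ L * (4 ^ k * (QC (lv cC j) c k m.1 m.2.2 * (hL κ k * PB b S k m * hL κ k)).trace) := by
  have hν := lv_pos hC j
  have hi := inv_lv hC j
  set F := bl (k + L) (encR L (lf e (c k))) m.1 m.2.2 with hF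
  set B := bl (k + L) (encR L (lf e (b k))) m.2.1 m.2.2 with hB
  have e3 : gramC (lv cC j * (4 ^ (k + L))⁻¹) F =
      TE L e k * (lv cC j • ((4 ^ k : ℝ)⁻¹ • ((mx k (c k) m.1 m.2.2)ᵀ * mx k (c k) m.1 m.2.2))) *
        (TE L e k)ᵀ := by
    rw [gramC, hF, gram_enc, smul_smul, Matrix.mul_smul, Matrix.mul_smul, Matrix.smul_mul,
      Matrix.smul_mul, smul_smul]
    congr 1
    rw [pow_add]
    have h4 : (4 : ℝ) ^ L ≠ 0 := by positivity
    have h5 : (4 : ℝ) ^ k ≠ 0 := by positivity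
    field_simp
  have hX : (lv cC j • ((4 ^ k : ℝ)⁻¹ •
      ((mx k (c k) m.1 m.2.2)ᵀ * mx k (c k) m.1 m.2.2))).PosSemidef :=
    ((psd_gram _).smul (by positivity)).smul hν.le
  rw [e3, phi_TE he hm k hX]
  have hM2 : (hd (k + L) * SE L e S (k + L) m * Bᵀ * hd (k + L)) *
      (hd (k + L) * SE L e S (k + L) m * Bᵀ * hd (k + L))ᵀ =
      (4 ^ (k + L) : ℝ) • (TE L e k * (hL κ k * PB b S k m * hL κ k) * (TE L e k)ᵀ) := by
    have t1 : (TE L e k)ᵀ * hd (k + L) = hL κ k * (TE L e k)ᵀ := by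
      have := congrArg Matrix.transpose (hd_TE (L := L) (e := e) hk)
      rwa [transpose_mul, transpose_mul, hd_symm, hL_symm] at this
    have q1 : (hd (k + L) * SE L e S (k + L) m * Bᵀ * hd (k + L)) *
        (hd (k + L) * SE L e S (k + L) m * Bᵀ * hd (k + L))ᵀ =
        hd (k + L) * SE L e S (k + L) m * (Bᵀ * B) * (SE L e S (k + L) m)ᵀ * hd (k + L) := by
      simp only [transpose_mul, transpose_transpose, hd_symm]
      rw [show hd (k + L) * SE L e S (k + L) m * Bᵀ * hd (k + L) *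
        (hd (k + L) * (B * ((SE L e S (k + L) m)ᵀ * hd (k + L)))) =
        hd (k + L) * SE L e S (k + L) m * Bᵀ * (hd (k + L) * hd (k + L)) *
          (B * ((SE L e S (k + L) m)ᵀ * hd (k + L))) by simp only [Matrix.mul_assoc],
        hd_sq, Matrix.mul_one]
      simp only [Matrix.mul_assoc]
    rw [q1, hB, gram_enc, SE_add, PB]
    simp only [transpose_mul, transpose_transpose, Matrix.mul_smul, Matrix.smul_mul, smul_smul]
    have e5 : ((4 : ℝ) ^ (k + L)) * (4 ^ k)⁻¹ = 4 ^ L := by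
      rw [pow_add]
      have h5 : (4 : ℝ) ^ k ≠ 0 := by positivity
      field_simp
    rw [e5]
    congr 1
    have t0 := hd_TE (L := L) (e := e) (κ := κ) hk
    have tT := TE_iso he hm k
    set T := TE L e k
    set G := (mx k (b k) m.2.1 m.2.2)ᵀ * mx k (b k) m.2.1 m.2.2
    calc hd (k + L) * (T * S k m * Tᵀ) * (T * G * Tᵀ) * (T * ((S k m)ᵀ * Tᵀ)) * hd (k + L)
        = (hd (k + L) * T) * S k m * (Tᵀ * T) * G * (Tᵀ * T) * (S k m)ᵀ * (Tᵀ * hd (k + L)) := by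
          simp only [Matrix.mul_assoc]
      _ = T * (hL κ k * (S k m * G * (S k m)ᵀ) * hL κ k) * Tᵀ := by
          rw [t0, t1, tT]
          simp only [Matrix.mul_assoc, Matrix.mul_one]
  rw [hM2, QC, ← hi, Matrix.mul_smul, trace_smul, Matrix.smul_mul, trace_smul, smul_eq_mul,
    smul_eq_mul]
  have tT := TE_iso he hm k
  set T := TE L e k
  set Φ := phi (lv cC j • ((4 ^ k : ℝ)⁻¹ •
    ((mx k (c k) m.1 m.2.2)ᵀ * mx k (c k) m.1 m.2.2)))
  set Z := hL κ k * PB b S k m * hL κ k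
  have e9 : (T * Φ * Tᵀ * (T * Z * Tᵀ)).trace = (Φ * Z).trace := by
    rw [show T * Φ * Tᵀ * (T * Z * Tᵀ) = (T * (Φ * (Tᵀ * T) * Z)) * Tᵀ by
      simp only [Matrix.mul_assoc], tT, Matrix.mul_one, trace_mul_comm,
      ← Matrix.mul_assoc, tT, Matrix.one_mul]
  rw [e9, pow_add]
  ring

variable {R : Pt} {co : ℕ → ℤ} {s : ℕ → Finset Pt} {cC : ℝ} {b c : ℕ → κ → ℤ → ℤ → ℝ}

/-- **The input `hqL` of `H609.tzX_lab` at one plane family index**: the pair sum of `C` and of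
the light matrix is at most `4 ^ L` times the sum of `gn`, the left side of `light_total`. -/
theorem PH_light (h : ∀ x, H420.Tr l N (G x) (K x)) (he : Function.Injective e)
    (hm : ∀ i, e i ∈ lbs L) (hC : 0 < cC) (hs : ∀ k ∈ Icc 1 N, s k ⊆ bx3 N R k (co k)) (j : ℕ) :
    (cC / 2 ^ (j - 1)) ^ 2 * ∑ k ∈ Icc 1 N, ∑ m ∈ s k,
      (phi (gramC (lv cC j * (4 ^ (k + L))⁻¹)
        (bl (k + L) (encR L (lf e (c k))) m.1 m.2.2)) *
      ((hd (k + L) * SE L e (SL l K) (k + L) m *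
        (bl (k + L) (encR L (lf e (b k))) m.2.1 m.2.2)ᵀ * hd (k + L)) *
        (hd (k + L) * SE L e (SL l K) (k + L) m *
        (bl (k + L) (encR L (lf e (b k))) m.2.1 m.2.2)ᵀ * hd (k + L))ᵀ)).trace ≤
      4 ^ L * ∑ k ∈ Ico 0 N, H103.GW N R.2.1 R.2.2 R.1 (k + 1) (co (k + 1))
        (gn l K (cC / 2 ^ (j - 1)) (sw b (k + 1)) (sw c (k + 1)) (k + 1)) := by
  have e1 : ∑ k ∈ Ico 0 N, H103.GW N R.2.1 R.2.2 R.1 (k + 1) (co (k + 1))
        (gn l K (cC / 2 ^ (j - 1)) (sw b (k + 1)) (sw c (k + 1)) (k + 1)) =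
      ∑ k ∈ Icc 1 N, H103.GW N R.2.1 R.2.2 R.1 k (co k)
        (gn l K (cC / 2 ^ (j - 1)) (sw b k) (sw c k) k) := by
    rw [Nat.Ico_zero_eq_range, ← Finset.sum_image (s := range N) (g := fun k => k + 1)
      (f := fun k => H103.GW N R.2.1 R.2.2 R.1 k (co k)
        (gn l K (cC / 2 ^ (j - 1)) (sw b k) (sw c k) k)) (fun a _ b _ h => by simpa using h)]
    refine Finset.sum_congr ?_ fun _ _ => rfl
    ext k
    simp only [mem_Icc, mem_image, mem_range]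
    constructor
    · rintro ⟨a, ha, rfl⟩
      omega
    · intro h
      exact ⟨k - 1, by omega, by omega⟩
  rw [e1, mul_sum, mul_sum]
  refine sum_le_sum fun k hk => ?_
  have hk1 := (mem_Icc.1 hk).1
  rw [mul_sum]
  refine (sum_le_sum fun m _ => (PH_node he hm hC b c (SL l K) hk1 m j).le).trans ?_
  refine (sum_le_sum_of_subset_of_nonneg (hs k hk) fun m _ _ => ?_).trans (le_of_eq ?_)
  · have := QP_nonneg (lv_pos hC j) b c (SL l K) k m.1 m
    positivity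
  · rw [← mul_sum, ← mul_sum, sum_bx3_32]
    simp only [pair_gn h hC b c j hk1]
    rfl

/-! ### The node operator is a contraction -/

theorem DB_sq (k : ℕ) (m : ℤ) (M : ℤ → Matrix κ κ ℝ) :
    1 - DB k m M * DB k m M = DB k m fun x => 1 - M x * M x := by
  refine bk_ext fun i j => ?_
  have e0 : bk (1 - DB k m M * DB k m M) i j =
      bk (1 : Matrix (Ix k × κ) (Ix k × κ) ℝ) i j - bk (DB k m M * DB k m M) i j := by
    ext a b
    rfl
  have e1 : bk (1 : Matrix (Ix k × κ) (Ix k × κ) ℝ) i j = if i = j then 1 else 0 := by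
    ext a b
    simp only [bk, Matrix.one_apply, Prod.mk.injEq]
    by_cases hij : i = j
    · simp [hij, Matrix.one_apply]
    · simp [hij]
  rw [e0, e1, bk_mul, bk_DB]
  simp only [bk_DB, ite_mul, zero_mul, mul_ite, mul_zero]
  by_cases hij : i = j
  · simp [hij]
  · simp [hij]

theorem sq_psd {X : Matrix κ κ ℝ} (h1 : ((1 : Matrix κ κ ℝ) - X).PosSemidef)
    (h2 : ((1 : Matrix κ κ ℝ) + X).PosSemidef) : ((1 : Matrix κ κ ℝ) - X * X).PosSemidef := by
  have a1 := h2.conjTranspose_mul_mul_same (1 - X)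
  have a2 := h1.conjTranspose_mul_mul_same (1 + X)
  rw [h1.isHermitian.eq] at a1
  rw [h2.isHermitian.eq] at a2
  have e : (1 : Matrix κ κ ℝ) - X * X =
      (1 / 2 : ℝ) • ((1 - X) * (1 + X) * (1 - X) + (1 + X) * (1 - X) * (1 + X)) := by
    have e1 : (1 - X) * (1 + X) * (1 - X) + (1 + X) * (1 - X) * (1 + X) =
        (2 : ℝ) • ((1 : Matrix κ κ ℝ) - X * X) := by
      rw [two_smul]
      noncomm_ring
    rw [e1, smul_smul]
    norm_num
  rw [e]
  exact (a1.add a2).smul (by norm_num)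

/-- The node operator is a contraction. -/
theorem SL_contr (h : ∀ x, H420.Tr l N (G x) (K x)) (k : ℕ) (m : ℤ × ℤ × ℤ) :
    (1 - (SL l K k m)ᵀ * SL l K k m).PosSemidef := by
  rw [SL_tr h, SL, DB_sq]
  refine DB_psd fun x => ?_
  have h1 := H999.S_le_one (Real.sqrt_nonneg l) ((h x).pdK k m.2.1) (ge_of_tr h k m.2.1 x)
  have h2 : (√l • (K x k m.2.1)⁻¹).PosSemidef :=
    ((h x).pdK k m.2.1).inv.posSemidef.smul (Real.sqrt_nonneg l)
  exact sq_psd h1 (PosSemidef.one.add h2)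

/-- The same on the fine grid (the input `hS` of `H609.tzX_lab`). -/
theorem SE_SL_contr (h : ∀ x, H420.Tr l N (G x) (K x)) (he : Function.Injective e)
    (hm : ∀ i, e i ∈ lbs L) (k : ℕ) (m : Pt) :
    (1 - (SE L e (SL l K) (k + L) m)ᵀ * SE L e (SL l K) (k + L) m).PosSemidef :=
  SE_contr he hm (SL_contr h k m)

end

end Vale.Agent.P141.H874
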