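import Vale.Agent.P141.H103.PlaneW

/-!
# The plane step for moving matrix families

`H103.totalW` for families whose outer cells are not averages of their halves: every family comes
with a potential `φ` whose increments bound the squares of the increments of the family, and the
failure of linearity of the pairing is one hypothesis `lin`.
-/

namespace Vale.Agent.P141.H874

open Finset Matrix Vale.Agent.P141.PL Vale.Agent.P141.PL.H103 Vale.Agent.P141.H103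

noncomputable section

variable {ι : Type*} [Fintype ι]

/-- increment of a potential from the cell `n` at scale `a + 1` to its two halves -/
def ic (φ : ℕ → ℤ → ℝ) (a : ℕ) (n : ℤ) : ℝ := φ a (2 * n) + φ a (2 * n + 1) - 2 * φ (a + 1) n

/-- mean of the two halves -/
def mn (P : ℕ → ℤ → Matrix ι ι ℝ) (a : ℕ) (n : ℤ) : Matrix ι ι ℝ :=
  (1 / 2 : ℝ) • (P a (2 * n) + P a (2 * n + 1))

/-- moving family with a potential, one middle index -/
structure Mov (N k : ℕ) (P : ℕ → ℤ → Matrix ι ι ℝ) (φ : ℕ → ℤ → ℝ) : Prop where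
  sym : ∀ a n, (P a n)ᵀ = P a n
  pot : ∀ a, k ≤ a → a ≤ N → ∀ n, (P a n * P a n).trace ≤ φ a n
  inc : ∀ a, k ≤ a → a < N → ∀ n,
    ((P a (2 * n) - P (a + 1) n) * (P a (2 * n) - P (a + 1) n)).trace
      + ((P a (2 * n + 1) - P (a + 1) n) * (P a (2 * n + 1) - P (a + 1) n)).trace
      ≤ 2 * ic φ a n

/-- energy of the potential at the outer scale `a` -/
def eF (N : ℕ) (R : ℤ) (φ : ℕ → ℤ → ℝ) (a : ℕ) : ℝ :=
  (2 : ℝ) ^ a * ∑ n ∈ iv (N - a) R, φ a n

theorem Mov.ic_nonneg {N k : ℕ} {P : ℕ → ℤ → Matrix ι ι ℝ} {φ : ℕ → ℤ → ℝ} (h : Mov N k P φ)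
    {a : ℕ} (h1 : k ≤ a) (h2 : a < N) (n : ℤ) : 0 ≤ ic φ a n := by
  have h3 := h.inc a h1 h2 n
  have h4 := P075.trace_sq_nonneg (B := P a (2 * n) - P (a + 1) n)
    (by rw [transpose_sub, h.sym, h.sym])
  have h5 := P075.trace_sq_nonneg (B := P a (2 * n + 1) - P (a + 1) n)
    (by rw [transpose_sub, h.sym, h.sym])
  linarith

/-- the sum of the increments -/
theorem sum_ic {N a : ℕ} (h : a < N) (R : ℤ) (φ : ℕ → ℤ → ℝ) :
    2 ^ a * ∑ n ∈ iv (N - (a + 1)) R, ic φ a n = eF N R φ a - eF N R φ (a + 1) := by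
  have e : N - a = (N - (a + 1)) + 1 := by omega
  unfold eF ic
  rw [e, H588.sum_iv_succ, Finset.sum_sub_distrib, ← Finset.mul_sum, pow_succ]
  ring

theorem eF_anti {N k : ℕ} {P : ℕ → ℤ → Matrix ι ι ℝ} {φ : ℕ → ℤ → ℝ} (h : Mov N k P φ)
    (R : ℤ) {a : ℕ} (h1 : k ≤ a) (h2 : a < N) : eF N R φ (a + 1) ≤ eF N R φ a := by
  have h3 := sum_ic h2 R φ
  have h4 : 0 ≤ (2 : ℝ) ^ a * ∑ n ∈ iv (N - (a + 1)) R, ic φ a n :=
    mul_nonneg (by positivity) (Finset.sum_nonneg fun n _ => h.ic_nonneg h1 h2 n)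
  linarith

theorem Mov.phi_nonneg {N k : ℕ} {P : ℕ → ℤ → Matrix ι ι ℝ} {φ : ℕ → ℤ → ℝ} (h : Mov N k P φ)
    {a : ℕ} (h1 : k ≤ a) (h2 : a ≤ N) (n : ℤ) : 0 ≤ φ a n :=
  (P075.trace_sq_nonneg (h.sym a n)).trans (h.pot a h1 h2 n)

theorem eF_nonneg {N k : ℕ} {P : ℕ → ℤ → Matrix ι ι ℝ} {φ : ℕ → ℤ → ℝ} (h : Mov N k P φ)
    (R : ℤ) {a : ℕ} (h1 : k ≤ a) (h2 : a ≤ N) : 0 ≤ eF N R φ a :=
  mul_nonneg (by positivity) (Finset.sum_nonneg fun n _ => h.phi_nonneg h1 h2 n)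

/-- one level of the multiscale energy -/
theorem level_le {N k : ℕ} {R : ℤ} {P : ℕ → ℤ → Matrix ι ι ℝ} {φ : ℕ → ℤ → ℝ}
    (h : Mov N k P φ) {r : ℕ} (hr : k + r < N) :
    2 ^ k * ((3 / 4 : ℝ) ^ r * ∑' n, ((fW N k R P r n - fW N k R P (r + 1) n)
        * (fW N k R P r n - fW N k R P (r + 1) n)).trace)
      ≤ 2 * ((3 / 4 : ℝ) ^ r * (eF N R φ (k + r) - eF N R φ (k + r + 1))) := by
  have h1 : ∑' n, ((fW N k R P r n - fW N k R P (r + 1) n)
        * (fW N k R P r n - fW N k R P (r + 1) n)).trace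
      = ∑ n ∈ iv (N - k) R,
        ((P (k + r) (n / 2 ^ r) - P (k + r + 1) (n / 2 ^ r / 2))
        * (P (k + r) (n / 2 ^ r) - P (k + r + 1) (n / 2 ^ r / 2))).trace := by
    rw [tsum_eq_sum (s := iv (N - k) R)]
    · refine Finset.sum_congr rfl fun n hn => ?_
      unfold fW
      rw [if_pos hn, if_pos hn]
      have : n / 2 ^ (r + 1) = n / 2 ^ r / 2 := by
        rw [pow_succ, ← Int.ediv_ediv_of_nonneg (by positivity)]
      rw [this]
      rfl
    · intro n hn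
      unfold fW
      rw [if_neg hn, if_neg hn, sub_zero, Matrix.mul_zero, trace_zero]
  obtain ⟨l, hl⟩ : ∃ l, N - k = (l + 1) + r := ⟨N - k - r - 1, by omega⟩
  have hl2 : N - (k + r + 1) = l := by omega
  rw [h1, hl]
  rw [sum_iv_div (l + 1) r R (fun n =>
      ((P (k + r) n - P (k + r + 1) (n / 2)) * (P (k + r) n - P (k + r + 1) (n / 2))).trace)]
  rw [sum_iv_pair]
  have h2 : ∀ n : ℤ, 2 * n / 2 = n := fun n => by omega
  have h3 : ∀ n : ℤ, (2 * n + 1) / 2 = n := fun n => by omega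
  simp only [h2, h3]
  have key : ∑ n ∈ iv l R,
      (((P (k + r) (2 * n) - P (k + r + 1) n) * (P (k + r) (2 * n) - P (k + r + 1) n)).trace
      + ((P (k + r) (2 * n + 1) - P (k + r + 1) n)
        * (P (k + r) (2 * n + 1) - P (k + r + 1) n)).trace)
      ≤ 2 * ∑ n ∈ iv l R, ic φ (k + r) n := by
    rw [Finset.mul_sum]
    exact Finset.sum_le_sum fun n _ => h.inc (k + r) (by omega) hr n
  have h5 := sum_ic hr R φ
  rw [hl2] at h5
  rw [← h5]
  have h6 := mul_le_mul_of_nonneg_left key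
    (show (0 : ℝ) ≤ 2 ^ k * ((3 / 4) ^ r * 2 ^ r) by positivity)
  refine le_trans (le_of_eq ?_) (h6.trans (le_of_eq ?_))
  · ring
  · rw [pow_add]
    ring

/-- the last level -/
theorem last_le {N k : ℕ} (hk : k ≤ N) {R : ℤ} {P : ℕ → ℤ → Matrix ι ι ℝ} {φ : ℕ → ℤ → ℝ}
    (h : Mov N k P φ) :
    2 ^ k * ∑' n, (fW N k R P (N - k) n * fW N k R P (N - k) n).trace ≤ eF N R φ N := by
  rw [last_eq hk]
  unfold eW eF
  exact mul_le_mul_of_nonneg_left (Finset.sum_le_sum fun n _ => h.pot N hk le_rfl n)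
    (by positivity)

theorem MM_leM {N k : ℕ} (hk : k ≤ N) {R : ℤ} {P : ℕ → ℤ → Matrix ι ι ℝ} {φ : ℕ → ℤ → ℝ}
    (h : Mov N k P φ) : 2 ^ k * MM (N - k) (fW N k R P) ≤ 2 * SEW N k (eF N R φ) := by
  unfold MM SEW
  rw [mul_add, Finset.mul_sum, mul_add, Finset.mul_sum]
  refine add_le_add (Finset.sum_le_sum fun r hr => ?_) ?_
  · exact level_le h (by have := Finset.mem_range.1 hr; omega)
  · have h1 := last_le hk (R := R) h
    have h2 := eF_nonneg h R hk le_rfl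
    have h3 : (0 : ℝ) ≤ (3 / 4) ^ (N - k) := by positivity
    rw [mul_left_comm]
    nlinarith [mul_le_mul_of_nonneg_left h1 h3, mul_nonneg h3 h2]

/-- **Shift by one plane**, one middle index. -/
theorem shiftM1 {N k : ℕ} (hk : k ≤ N) {R T : ℤ} {P Q : ℕ → ℤ → Matrix ι ι ℝ}
    {φ ψ : ℕ → ℤ → ℝ} (hP : Mov N k P φ) (hQ : Mov N k Q ψ) (s : ℤ) :
    2 ^ k * |alW N R T k (P k) (Q k) (s + 1) - alW N R T k (P k) (Q k) s|
      ≤ 8 * (SEW N k (eF N R φ) + SEW N k (eF N T ψ)) := by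
  have h := first_diff_mat (N - k) (f := fW N k R P) (g := fW N k T Q)
    (fun r hr n => fW_blk N k R P hr n) (fun r hr n => fW_blk N k T Q hr n)
    (fun r _ n => fW_symm hP.sym r n) (fun r _ n => fW_symm hQ.sym r n)
    (fun r _ => fW_fs ..) (fun r _ => fW_fs ..) s
  rw [cv_eq_alW, cv_eq_alW] at h
  have h2 := mul_le_mul_of_nonneg_left h (show (0 : ℝ) ≤ 2 ^ k by positivity)
  have h3 := MM_leM hk (R := R) hP
  have h4 := MM_leM hk (R := T) hQ
  linarith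

/-- **Shift**, one middle index: `|t' - t| ≤ D`. -/
theorem shiftM {N k : ℕ} (hk : k ≤ N) {R T : ℤ} {P Q : ℕ → ℤ → Matrix ι ι ℝ}
    {φ ψ : ℕ → ℤ → ℝ} (hP : Mov N k P φ) (hQ : Mov N k Q ψ) {t t' : ℤ} {D : ℕ}
    (hD : |t' - t| ≤ D) :
    2 ^ k * |alW N R T k (P k) (Q k) t' - alW N R T k (P k) (Q k) t|
      ≤ 8 * D * (SEW N k (eF N R φ) + SEW N k (eF N T ψ)) := by
  set E := SEW N k (eF N R φ) + SEW N k (eF N T ψ) with hE
  have key : ∀ (d : ℕ) (u : ℤ), 2 ^ k * |alW N R T k (P k) (Q k) (u + d)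
      - alW N R T k (P k) (Q k) u| ≤ 8 * d * E := by
    intro d
    induction d with
    | zero => intro u; simp
    | succ d ih =>
      intro u
      have h1 := shiftM1 hk (R := R) (T := T) hP hQ (u + d)
      rw [← hE] at h1
      have h2 := ih u
      have h3 := abs_sub_le (alW N R T k (P k) (Q k) (u + ((d + 1 : ℕ) : ℤ)))
        (alW N R T k (P k) (Q k) (u + d)) (alW N R T k (P k) (Q k) u)
      have e : u + ((d + 1 : ℕ) : ℤ) = u + d + 1 := by push_cast; ring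
      rw [e] at h3 ⊢
      have h4 := mul_le_mul_of_nonneg_left h3 (show (0 : ℝ) ≤ 2 ^ k by positivity)
      push_cast
      linarith
  have hE0 : 0 ≤ E := by
    have h := key 1 0
    have h2 : 0 ≤ (2 : ℝ) ^ k * |alW N R T k (P k) (Q k) (0 + ((1 : ℕ) : ℤ))
      - alW N R T k (P k) (Q k) 0| := by positivity
    push_cast at h
    push_cast at h2
    linarith
  have hD' := abs_le.1 hD
  rcases le_total t t' with h | h
  · obtain ⟨d, hd⟩ : ∃ d : ℕ, t' = t + d := ⟨(t' - t).toNat, by omega⟩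
    have h1 := key d t
    rw [← hd] at h1
    have hdD : (d : ℝ) ≤ D := by
      have : d ≤ D := by omega
      exact_mod_cast this
    have := mul_le_mul_of_nonneg_right hdD hE0
    linarith
  · obtain ⟨d, hd⟩ : ∃ d : ℕ, t = t' + d := ⟨(t - t').toNat, by omega⟩
    have h1 := key d t'
    rw [← hd, abs_sub_comm] at h1
    have hdD : (d : ℝ) ≤ D := by
      have : d ≤ D := by omega
      exact_mod_cast this
    have := mul_le_mul_of_nonneg_right hdD hE0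
    linarith

/-! ### The split -/

/-- opposite pairing of two pairs of halves -/
theorem opp_ptM {P P₀ P₁ Q Q₀ Q₁ : Matrix ι ι ℝ} (hP : Pᵀ = P) (hP₀ : P₀ᵀ = P₀) (hP₁ : P₁ᵀ = P₁)
    (hQ : Qᵀ = Q) (hQ₀ : Q₀ᵀ = Q₀) (hQ₁ : Q₁ᵀ = Q₁) :
    (((1 / 2 : ℝ) • (P₀ + P₁)) * ((1 / 2 : ℝ) • (Q₀ + Q₁))).trace
      ≤ (1 / 2) * ((P₀ * Q₁).trace + (P₁ * Q₀).trace)
        + (1 / 4) * (((P₀ - P) * (P₀ - P)).trace + ((P₁ - P) * (P₁ - P)).trace)
        + (1 / 4) * (((Q₀ - Q) * (Q₀ - Q)).trace + ((Q₁ - Q) * (Q₁ - Q)).trace) := by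
  have h1 := P075.trace_sq_nonneg (B := (P₀ - P₁) - (Q₀ - Q₁))
    (by simp only [transpose_sub, hP₀, hP₁, hQ₀, hQ₁])
  have h2 := P075.trace_sq_nonneg (B := (P₀ - P) + (P₁ - P))
    (by simp only [transpose_sub, transpose_add, hP₀, hP₁, hP])
  have h3 := P075.trace_sq_nonneg (B := (Q₀ - Q) + (Q₁ - Q))
    (by simp only [transpose_sub, transpose_add, hQ₀, hQ₁, hQ])
  have c1 := trace_mul_comm P₁ P₀
  have c2 := trace_mul_comm Q₁ Q₀
  have c3 := trace_mul_comm Q₀ P₀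
  have c4 := trace_mul_comm Q₀ P₁
  have c5 := trace_mul_comm Q₁ P₀
  have c6 := trace_mul_comm Q₁ P₁
  have c7 := trace_mul_comm P P₀
  have c8 := trace_mul_comm P P₁
  have c9 := trace_mul_comm Q Q₀
  have c10 := trace_mul_comm Q Q₁
  simp only [Matrix.sub_mul, Matrix.mul_sub, Matrix.smul_mul, Matrix.mul_smul, Matrix.add_mul,
    Matrix.mul_add, trace_sub, trace_add, trace_smul, smul_eq_mul] at h1 h2 h3 ⊢
  rw [c1, c2, c3, c4, c5, c6] at h1
  rw [c1, c7, c8] at h2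
  rw [c2, c9, c10] at h3
  rw [c7, c8, c9, c10]
  linarith

/-- outer split on a plane, one middle index -/
theorem outer_splitM {N k : ℕ} (h : k < N) {R T : ℤ} {P Q : ℕ → ℤ → Matrix ι ι ℝ}
    {φ ψ : ℕ → ℤ → ℝ} (hP : Mov N k P φ) (hQ : Mov N k Q ψ) {D : ℤ → ℤ → ℝ}
    (lin : ∀ n n', (P (k + 1) n * Q (k + 1) n').trace
      ≤ (mn P k n * mn Q k n').trace + ic φ k n + ic ψ k n' + D n n') (s : ℤ) :
    2 ^ (k + 1) * ∑ n ∈ iv (N - (k + 1)) R, (if s - n ∈ iv (N - (k + 1)) T then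
      (P (k + 1) n * Q (k + 1) (s - n)).trace else 0)
      ≤ 2 ^ k * alW N R T k (P k) (Q k) (2 * s + 1)
        + 3 * (eF N R φ k - eF N R φ (k + 1)) + 3 * (eF N T ψ k - eF N T ψ (k + 1))
        + 2 ^ (k + 1) * ∑ n ∈ iv (N - (k + 1)) R, (if s - n ∈ iv (N - (k + 1)) T then
          D n (s - n) else 0) := by
  have hpt : ∀ n n', (P (k + 1) n * Q (k + 1) n').trace
      ≤ (1 / 2) * ((P k (2 * n) * Q k (2 * n' + 1)).trace + (P k (2 * n + 1) * Q k (2 * n')).trace)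
        + (3 / 2) * ic φ k n + (3 / 2) * ic ψ k n' + D n n' := by
    intro n n'
    have h1 := opp_ptM (hP.sym (k + 1) n) (hP.sym k (2 * n)) (hP.sym k (2 * n + 1))
      (hQ.sym (k + 1) n') (hQ.sym k (2 * n')) (hQ.sym k (2 * n' + 1))
    have h2 := lin n n'
    have h3 := hP.inc k le_rfl h n
    have h4 := hQ.inc k le_rfl h n'
    unfold mn at h2
    linarith
  have hsum : ∑ n ∈ iv (N - (k + 1)) R, (if s - n ∈ iv (N - (k + 1)) T then
      (P (k + 1) n * Q (k + 1) (s - n)).trace else 0)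
      ≤ (1 / 2) * alW N R T k (P k) (Q k) (2 * s + 1)
        + (3 / 2) * ∑ n ∈ iv (N - (k + 1)) R, ic φ k n
        + (3 / 2) * ∑ n ∈ iv (N - (k + 1)) T, ic ψ k n
        + ∑ n ∈ iv (N - (k + 1)) R, (if s - n ∈ iv (N - (k + 1)) T then D n (s - n) else 0) := by
    have h5 := H588.sum_refl_le (N - (k + 1)) R T s (fun n => (3 / 2) * ic ψ k n)
      (fun n => mul_nonneg (by norm_num) (hQ.ic_nonneg le_rfl h n))
    rw [Finset.mul_sum (s := iv (N - (k + 1)) T)]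
    rw [← alW_split h, Finset.mul_sum, Finset.mul_sum]
    have h6 : ∑ n ∈ iv (N - (k + 1)) R, (if s - n ∈ iv (N - (k + 1)) T then
        (P (k + 1) n * Q (k + 1) (s - n)).trace else 0)
        ≤ ∑ n ∈ iv (N - (k + 1)) R, ((1 / 2) * (if s - n ∈ iv (N - (k + 1)) T then
            (P k (2 * n) * Q k (2 * (s - n) + 1)).trace
              + (P k (2 * n + 1) * Q k (2 * (s - n))).trace else 0)
          + (3 / 2) * ic φ k n
          + (if s - n ∈ iv (N - (k + 1)) T then (3 / 2) * ic ψ k (s - n) else 0)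
          + (if s - n ∈ iv (N - (k + 1)) T then D n (s - n) else 0)) := by
      refine Finset.sum_le_sum fun n _ => ?_
      split_ifs with hc
      · have := hpt n (s - n)
        linarith
      · have := hP.ic_nonneg le_rfl h n
        linarith
    rw [Finset.sum_add_distrib, Finset.sum_add_distrib, Finset.sum_add_distrib] at h6
    linarith
  have h7 := mul_le_mul_of_nonneg_left hsum (show (0 : ℝ) ≤ 2 ^ (k + 1) by positivity)
  refine h7.trans (le_of_eq ?_)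
  rw [← sum_ic h R φ, ← sum_ic h T ψ, pow_succ]
  ring

/-! ### All middle indices -/

variable {κ : Type*} [Fintype κ]

/-- moving family for every middle index -/
def MovM (N k : ℕ) (P : ℕ → ℤ → ℤ → Matrix ι ι ℝ) (φ : ℕ → ℤ → ℤ → ℝ) : Prop :=
  ∀ m, Mov N k (fun a n => P a n m) (fun a n => φ a n m)

/-- potential energy: middle scale `k`, outer scale `a` -/
def EF (N : ℕ) (R S : ℤ) (k : ℕ) (φ : ℕ → ℤ → ℤ → ℝ) (a : ℕ) : ℝ :=
  (2 : ℝ) ^ a * 2 ^ k * ∑ m ∈ iv (N - k) S, ∑ n ∈ iv (N - a) R, φ a n m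

/-- plane sum of the defects of linearity of the step `k + 1 → k` -/
def DW (N : ℕ) (R S T : ℤ) (k : ℕ) (c : ℤ) (D : ℤ → ℤ → ℤ → ℝ) : ℝ :=
  (2 : ℝ) ^ k * ∑ m ∈ iv (N - k) S, (2 ^ (k + 1) * ∑ n ∈ iv (N - (k + 1)) R,
    (if c - m / 2 - n ∈ iv (N - (k + 1)) T then D n (c - m / 2 - n) m else 0))

theorem EF_eq (N : ℕ) (R S : ℤ) (k : ℕ) (φ : ℕ → ℤ → ℤ → ℝ) (a : ℕ) :
    EF N R S k φ a = 2 ^ k * ∑ m ∈ iv (N - k) S, eF N R (fun a n => φ a n m) a := by
  unfold EF eF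
  rw [← Finset.mul_sum]
  ring

theorem SEF_eq (N : ℕ) (R S : ℤ) (k : ℕ) (φ : ℕ → ℤ → ℤ → ℝ) :
    SEW N k (EF N R S k φ)
      = 2 ^ k * ∑ m ∈ iv (N - k) S, SEW N k (eF N R (fun a n => φ a n m)) := by
  unfold SEW
  simp only [EF_eq]
  rw [Finset.sum_add_distrib, mul_add, ← Finset.mul_sum, Finset.sum_comm]
  congr 1
  · rw [Finset.mul_sum]
    refine Finset.sum_congr rfl fun r _ => ?_
    rw [← Finset.mul_sum, Finset.sum_sub_distrib]
    ring
  · ring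

theorem EF_nonneg {N k : ℕ} {R S : ℤ} {P : ℕ → ℤ → ℤ → Matrix ι ι ℝ} {φ : ℕ → ℤ → ℤ → ℝ}
    (h : MovM N k P φ) {a : ℕ} (h1 : k ≤ a) (h2 : a ≤ N) : 0 ≤ EF N R S k φ a := by
  rw [EF_eq]
  exact mul_nonneg (by positivity) (Finset.sum_nonneg fun m _ => eF_nonneg (h m) R h1 h2)

theorem EF_anti {N k : ℕ} {R S : ℤ} {P : ℕ → ℤ → ℤ → Matrix ι ι ℝ} {φ : ℕ → ℤ → ℤ → ℝ}
    (h : MovM N k P φ) {a : ℕ} (ha : k ≤ a) (haN : a < N) :
    EF N R S k φ (a + 1) ≤ EF N R S k φ a := by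
  rw [EF_eq, EF_eq]
  refine mul_le_mul_of_nonneg_left (Finset.sum_le_sum fun m _ => ?_) (by positivity)
  exact eF_anti (h m) R ha haN

theorem EF_anti' {N k : ℕ} {R S : ℤ} {P : ℕ → ℤ → ℤ → Matrix ι ι ℝ} {φ : ℕ → ℤ → ℤ → ℝ}
    (h : MovM N k P φ) {a : ℕ} (ha : k ≤ a) (haN : a ≤ N) :
    EF N R S k φ a ≤ EF N R S k φ k := by
  induction a, ha using Nat.le_induction with
  | base => exact le_rfl
  | succ a ha ih => exact (EF_anti h ha (by omega)).trans (ih (by omega))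

/-- own energy is at most the potential energy -/
theorem EW_le_EF {N k : ℕ} {R S : ℤ} {P : ℕ → ℤ → ℤ → Matrix ι ι ℝ} {φ : ℕ → ℤ → ℤ → ℝ}
    (h : MovM N k P φ) {a : ℕ} (h1 : k ≤ a) (h2 : a ≤ N) : EW N R S k P a ≤ EF N R S k φ a := by
  unfold EW EF
  exact mul_le_mul_of_nonneg_left (Finset.sum_le_sum fun m _ => Finset.sum_le_sum fun n _ =>
    (h m).pot a h1 h2 n) (by positivity)

/-- **The step.** -/
theorem stepM {N k : ℕ} (h : k < N) {R S T : ℤ} {c : ℕ → ℤ} (hc : H588.Pl c)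
    {P Q : ℕ → ℤ → ℤ → Matrix ι ι ℝ} {φ ψ : ℕ → ℤ → ℤ → ℝ} {pu qu : ℤ → ℤ → Matrix κ κ ℝ}
    {g D : ℤ → ℤ → ℤ → ℝ} (hP : MovM N k P φ) (hQ : MovM N k Q ψ)
    (lin : ∀ n n' m, (P (k + 1) n m * Q (k + 1) n' m).trace
      ≤ (mn (fun a n => P a n m) k n * mn (fun a n => Q a n m) k n').trace
        + ic (fun a n => φ a n m) k n + ic (fun a n => ψ a n m) k n' + D n n' m)
    (mid : ∀ n n' m, (pu n m * qu n' m).trace + g n n' m
      ≤ (1 / 2) * ((P (k + 1) n (2 * m) * Q (k + 1) n' (2 * m)).trace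
        + (P (k + 1) n (2 * m + 1) * Q (k + 1) n' (2 * m + 1)).trace)) :
    MW N R S T (k + 1) (c (k + 1)) pu qu + GW N R S T (k + 1) (c (k + 1)) g
      ≤ MW N R S T k (c k) (P k) (Q k)
        + 19 * (SEW N k (EF N R S k φ) + SEW N k (EF N T S k ψ))
        + DW N R S T k (c (k + 1)) D := by
  have e : N - k = (N - (k + 1)) + 1 := by omega
  -- the middle split
  have h1 : MW N R S T (k + 1) (c (k + 1)) pu qu + GW N R S T (k + 1) (c (k + 1)) g
      ≤ 2 ^ k * ∑ m ∈ iv (N - k) S, (2 ^ (k + 1) * ∑ n ∈ iv (N - (k + 1)) R,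
        (if c (k + 1) - m / 2 - n ∈ iv (N - (k + 1)) T then
          (P (k + 1) n m * Q (k + 1) (c (k + 1) - m / 2 - n) m).trace else 0)) := by
    rw [e, H588.sum_iv_succ]
    unfold MW GW
    rw [← mul_add, ← Finset.sum_add_distrib]
    have h4 : (4 : ℝ) ^ (k + 1) = 2 ^ k * (2 * 2 ^ (k + 1)) := by
      rw [show (4 : ℝ) = 2 * 2 by norm_num, mul_pow, pow_succ]; ring
    rw [h4, mul_assoc]
    refine mul_le_mul_of_nonneg_left ?_ (by positivity)
    rw [Finset.mul_sum]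
    refine Finset.sum_le_sum fun m _ => ?_
    have e1 : 2 * m / 2 = m := by omega
    have e2 : (2 * m + 1) / 2 = m := by omega
    rw [e1, e2, ← mul_add, mul_comm (2 : ℝ) (2 ^ (k + 1)), mul_assoc]
    refine mul_le_mul_of_nonneg_left ?_ (by positivity)
    rw [← Finset.sum_add_distrib, ← Finset.sum_add_distrib, Finset.mul_sum]
    refine Finset.sum_le_sum fun n _ => ?_
    split_ifs with hcc
    · have := mid n (c (k + 1) - m - n) m
      linarith
    · simp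
  refine h1.trans ?_
  -- the outer split and the shift
  have h2 : ∀ m, 2 ^ (k + 1) * ∑ n ∈ iv (N - (k + 1)) R,
        (if c (k + 1) - m / 2 - n ∈ iv (N - (k + 1)) T then
          (P (k + 1) n m * Q (k + 1) (c (k + 1) - m / 2 - n) m).trace else 0)
      ≤ 2 ^ k * alW N R T k (fun n => P k n m) (fun n => Q k n m) (c k - m)
        + 19 * (SEW N k (eF N R (fun a n => φ a n m)) + SEW N k (eF N T (fun a n => ψ a n m)))
        + 2 ^ (k + 1) * ∑ n ∈ iv (N - (k + 1)) R,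
          (if c (k + 1) - m / 2 - n ∈ iv (N - (k + 1)) T then
            D n (c (k + 1) - m / 2 - n) m else 0) := by
    intro m
    have q1 := outer_splitM h (R := R) (T := T) (hP m) (hQ m) (fun n n' => lin n n' m)
      (c (k + 1) - m / 2)
    have q2 := shiftM h.le (R := R) (T := T) (hP m) (hQ m) (t := c k - m)
      (t' := 2 * (c (k + 1) - m / 2) + 1) (D := 2) (by
        have := hc k
        rw [abs_le]
        push_cast
        constructor <;> omega)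
    have q3 := first_le_SEW h (e := eF N R (fun a n => φ a n m))
      (fun a h1 h2 => eF_anti (hP m) R h1 h2) (eF_nonneg (hP m) R h.le le_rfl)
    have q4 := first_le_SEW h (e := eF N T (fun a n => ψ a n m))
      (fun a h1 h2 => eF_anti (hQ m) T h1 h2) (eF_nonneg (hQ m) T h.le le_rfl)
    have q5 : (2 : ℝ) ^ k * (alW N R T k (fun n => P k n m) (fun n => Q k n m)
          (2 * (c (k + 1) - m / 2) + 1) - alW N R T k (fun n => P k n m) (fun n => Q k n m)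
          (c k - m)) ≤ 2 ^ k * |alW N R T k (fun n => P k n m) (fun n => Q k n m)
          (2 * (c (k + 1) - m / 2) + 1) - alW N R T k (fun n => P k n m) (fun n => Q k n m)
          (c k - m)| := mul_le_mul_of_nonneg_left (le_abs_self _) (by positivity)
    push_cast at q2
    linarith
  refine (mul_le_mul_of_nonneg_left (Finset.sum_le_sum fun m _ => h2 m) (by positivity)).trans
    (le_of_eq ?_)
  rw [SEF_eq, SEF_eq, Finset.sum_add_distrib, Finset.sum_add_distrib, ← Finset.mul_sum,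
    ← Finset.mul_sum, Finset.sum_add_distrib, MW, DW]
  have h4 : (4 : ℝ) ^ k = 2 ^ k * 2 ^ k := by rw [← mul_pow]; norm_num
  rw [h4]
  unfold alW
  ring

/-! ### Telescoping -/

/-- **Telescoping**, abstract, with defects of linearity. -/
theorem telM {k₀ N : ℕ} (hkN : k₀ ≤ N) {M M' g x d : ℕ → ℝ} {E E' F F' dE dF : ℕ → ℕ → ℝ}
    (h1 : ∀ k, k₀ ≤ k → k < N → M (k + 1) + g (k + 1)
      ≤ M' k + 19 * (SEW N k (E' k) + SEW N k (F' k)) + d k)
    (h2 : ∀ k, k₀ ≤ k → k < N → ∀ a, k + 1 ≤ a → a ≤ N → E (k + 1) a ≤ E' k a + dE k a)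
    (h3 : ∀ k, k₀ ≤ k → k < N → ∀ a, k + 1 ≤ a → a ≤ N → F (k + 1) a ≤ F' k a + dF k a)
    (h4 : ∀ k, k₀ ≤ k → k < N → M' k + 19 * (WW N k (E' k) + WW N k (F' k))
      ≤ M k + 19 * (WW N k (E k) + WW N k (F k)) + x k) :
    ∑ k ∈ Ico k₀ N, g (k + 1) + (M N + 19 * (WW N N (E N) + WW N N (F N)))
      ≤ M k₀ + 19 * (WW N k₀ (E k₀) + WW N k₀ (F k₀)) + ∑ k ∈ Ico k₀ N, x k
        + ∑ k ∈ Ico k₀ N, d k
        + 19 * ∑ k ∈ Ico k₀ N, (WW N (k + 1) (dE k) + WW N (k + 1) (dF k)) := by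
  have key : ∀ K, k₀ ≤ K → K ≤ N →
      ∑ k ∈ Ico k₀ K, g (k + 1) + (M K + 19 * (WW N K (E K) + WW N K (F K)))
      ≤ M k₀ + 19 * (WW N k₀ (E k₀) + WW N k₀ (F k₀)) + ∑ k ∈ Ico k₀ K, x k
        + ∑ k ∈ Ico k₀ K, d k
        + 19 * ∑ k ∈ Ico k₀ K, (WW N (k + 1) (dE k) + WW N (k + 1) (dF k)) := by
    intro K hK
    induction K, hK using Nat.le_induction with
    | base => intro _; simp
    | succ K hK ih =>
      intro hKN
      have hlt : K < N := by omega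
      have q := ih hlt.le
      have q1 := h1 K hK hlt
      have q2 := WW_step hlt (h2 K hK hlt)
      have q3 := WW_step hlt (h3 K hK hlt)
      have q4 := h4 K hK hlt
      rw [sum_Ico_succ_top hK, sum_Ico_succ_top hK, sum_Ico_succ_top hK, sum_Ico_succ_top hK]
      linarith
  exact key N hkN le_rfl

theorem symm_of_movM {N k : ℕ} {P : ℕ → ℤ → ℤ → Matrix ι ι ℝ} {φ : ℕ → ℤ → ℤ → ℝ}
    (h : MovM N k P φ) (a : ℕ) (n m : ℤ) : (P a n m)ᵀ = P a n m := (h m).sym a n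

/-- **The sum of the gains over all scales**, moving families. `P k`, `Q k` : families at middle
scale `k` of the functions of time `k` with potentials `φ k`, `ψ k`; the primes belong to the
functions of time `k + 1`; `D k` : defect of linearity of the step `k + 1 → k`. -/
theorem totalM {k₀ N : ℕ} (hkN : k₀ ≤ N) {R S T : ℤ} {c : ℕ → ℤ} (hc : H588.Pl c)
    {ι : ℕ → Type*} [∀ k, Fintype (ι k)]
    {P P' Q Q' : ∀ k, ℕ → ℤ → ℤ → Matrix (ι k) (ι k) ℝ} {φ φ' ψ ψ' : ℕ → ℕ → ℤ → ℤ → ℝ}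
    {g D : ℕ → ℤ → ℤ → ℤ → ℝ} {dE dF : ℕ → ℕ → ℝ} {x : ℕ → ℝ}
    (mP : ∀ k, k₀ ≤ k → k ≤ N → MovM N k (P k) (φ k))
    (mQ : ∀ k, k₀ ≤ k → k ≤ N → MovM N k (Q k) (ψ k))
    (mP' : ∀ k, k₀ ≤ k → k < N → MovM N k (P' k) (φ' k))
    (mQ' : ∀ k, k₀ ≤ k → k < N → MovM N k (Q' k) (ψ' k))
    (lin : ∀ k, k₀ ≤ k → k < N → ∀ n n' m, (P' k (k + 1) n m * Q' k (k + 1) n' m).trace
      ≤ (mn (fun a n => P' k a n m) k n * mn (fun a n => Q' k a n m) k n').trace
        + ic (fun a n => φ' k a n m) k n + ic (fun a n => ψ' k a n m) k n' + D k n n' m)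
    (mid : ∀ k, k₀ ≤ k → k < N → ∀ n n' m,
      (P (k + 1) (k + 1) n m * Q (k + 1) (k + 1) n' m).trace + g k n n' m
      ≤ (1 / 2) * ((P' k (k + 1) n (2 * m) * Q' k (k + 1) n' (2 * m)).trace
        + (P' k (k + 1) n (2 * m + 1) * Q' k (k + 1) n' (2 * m + 1)).trace))
    (hE : ∀ k, k₀ ≤ k → k < N → ∀ a, k + 1 ≤ a → a ≤ N →
      EF N R S (k + 1) (φ (k + 1)) a ≤ EF N R S k (φ' k) a + dE k a)
    (hF : ∀ k, k₀ ≤ k → k < N → ∀ a, k + 1 ≤ a → a ≤ N →
      EF N T S (k + 1) (ψ (k + 1)) a ≤ EF N T S k (ψ' k) a + dF k a)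
    (hx : ∀ k, k₀ ≤ k → k < N → MW N R S T k (c k) (P' k k) (Q' k k)
      + 19 * (WW N k (EF N R S k (φ' k)) + WW N k (EF N T S k (ψ' k)))
      ≤ MW N R S T k (c k) (P k k) (Q k k)
      + 19 * (WW N k (EF N R S k (φ k)) + WW N k (EF N T S k (ψ k))) + x k) :
    ∑ k ∈ Ico k₀ N, GW N R S T (k + 1) (c (k + 1)) (g k)
      ≤ 77 * (EF N R S k₀ (φ k₀) k₀ + EF N T S k₀ (ψ k₀) k₀) + ∑ k ∈ Ico k₀ N, x k
        + ∑ k ∈ Ico k₀ N, DW N R S T k (c (k + 1)) (D k)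
        + 19 * ∑ k ∈ Ico k₀ N, (WW N (k + 1) (dE k) + WW N (k + 1) (dF k)) := by
  have h := telM hkN (M := fun k => MW N R S T k (c k) (P k k) (Q k k))
    (M' := fun k => MW N R S T k (c k) (P' k k) (Q' k k))
    (g := fun k => GW N R S T k (c k) (g (k - 1))) (x := x)
    (d := fun k => DW N R S T k (c (k + 1)) (D k))
    (E := fun k => EF N R S k (φ k)) (E' := fun k => EF N R S k (φ' k))
    (F := fun k => EF N T S k (ψ k)) (F' := fun k => EF N T S k (ψ' k)) (dE := dE) (dF := dF)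
    (fun k h1 h2 => by
      simp only [Nat.add_sub_cancel]
      exact stepM h2 hc (mP' k h1 h2) (mQ' k h1 h2) (lin k h1 h2) (mid k h1 h2))
    hE hF hx
  simp only [Nat.add_sub_cancel] at h
  have mPN := mP N hkN le_rfl
  have mQN := mQ N hkN le_rfl
  have mP0 := mP k₀ le_rfl hkN
  have mQ0 := mQ k₀ le_rfl hkN
  have q1 := abs_le.1 (abs_MW_le N R S T N (c N) (symm_of_movM mPN) (symm_of_movM mQN))
  have q2 : EF N R S N (φ N) N ≤ WW N N (EF N R S N (φ N)) := by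
    unfold WW; rw [Nat.sub_self]; simp
  have q3 : EF N T S N (ψ N) N ≤ WW N N (EF N T S N (ψ N)) := by
    unfold WW; rw [Nat.sub_self]; simp
  have q4 := EF_nonneg (R := R) (S := S) mPN le_rfl le_rfl
  have q5 := EF_nonneg (R := T) (S := S) mQN le_rfl le_rfl
  have q6 := EW_le_EF (R := R) (S := S) mPN le_rfl le_rfl
  have q7 := EW_le_EF (R := T) (S := S) mQN le_rfl le_rfl
  have p1 := abs_le.1 (abs_MW_le N R S T k₀ (c k₀) (symm_of_movM mP0) (symm_of_movM mQ0))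
  have p2 := WW_le (N := N) (k := k₀) (e := EF N R S k₀ (φ k₀)) (EF_nonneg mP0 le_rfl hkN)
    fun a h1 h2 => EF_anti' mP0 h1 h2
  have p3 := WW_le (N := N) (k := k₀) (e := EF N T S k₀ (ψ k₀)) (EF_nonneg mQ0 le_rfl hkN)
    fun a h1 h2 => EF_anti' mQ0 h1 h2
  have p4 := EF_nonneg (R := R) (S := S) mP0 le_rfl hkN
  have p5 := EF_nonneg (R := T) (S := S) mQ0 le_rfl hkN
  have p6 := EW_le_EF (R := R) (S := S) mP0 le_rfl hkN
  have p7 := EW_le_EF (R := T) (S := S) mQ0 le_rfl hkN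
  linarith

/-- a static family is a moving one, with its own energy as potential -/
theorem movM_of_static {N k : ℕ} {Q : ℕ → ℤ → ℤ → Matrix ι ι ℝ} (h : OutM N k Q)
    (s : ∀ a n m, (Q a n m)ᵀ = Q a n m) :
    MovM N k Q (fun a n m => (Q a n m * Q a n m).trace) := by
  intro m
  refine ⟨fun a n => s a n m, fun a _ _ n => le_rfl, fun a h1 h2 n => ?_⟩
  have e := h a h1 h2 n m
  have e2 := mean_dist (Q a (2 * n) m) (Q a (2 * n + 1) m)
  have e3 := P075.trace_sq_nonneg (B := Q a (2 * n) m - Q (a + 1) n m)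
    (by rw [transpose_sub, s, s])
  have e4 := P075.trace_sq_nonneg (B := Q a (2 * n + 1) m - Q (a + 1) n m)
    (by rw [transpose_sub, s, s])
  rw [← e] at e2
  simp only [ic]
  linarith

end

end Vale.Agent.P141.H874
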